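import Crest.Agent.Lib.PolyTime.Prog

/-!
# The compiler from `Prog` to `Turing.FinTM2` (helper64)
-/

set_option autoImplicit false

namespace Crest.Agent.PolyT

open Crest.Complexity Turing

namespace Comp

/-- reachability within a number of steps -/
def RT {K' : Type} [DecidableEq K'] {Γ : K' → Type} {Λ σ : Type} (m : Λ → TM2.Stmt Γ Λ σ)
    (c c' : TM2.Cfg Γ Λ σ) (n : ℕ) : Prop :=
  ∃ j, j ≤ n ∧ (flip bind (TM2.step m))^[j] (some c) = some c'

section RTlemmas

variable {K' : Type} [DecidableEq K'] {Γ : K' → Type} {Λ σ : Type} {m : Λ → TM2.Stmt Γ Λ σ}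

theorem RT.refl (c : TM2.Cfg Γ Λ σ) : RT m c c 0 := ⟨0, le_refl _, rfl⟩

theorem RT.mono {c c' : TM2.Cfg Γ Λ σ} {n n' : ℕ} (h : RT m c c' n) (hn : n ≤ n') :
    RT m c c' n' := by
  obtain ⟨j, hj, h⟩ := h
  exact ⟨j, hj.trans hn, h⟩

theorem RT.trans {c c' c'' : TM2.Cfg Γ Λ σ} {n n' : ℕ} (h : RT m c c' n) (h' : RT m c' c'' n') :
    RT m c c'' (n + n') := by
  obtain ⟨j, hj, h⟩ := h
  obtain ⟨j', hj', h'⟩ := h'
  refine ⟨j' + j, by omega, ?_⟩
  rw [Function.iterate_add_apply, h, h']

theorem RT.step {c c' : TM2.Cfg Γ Λ σ} (h : TM2.step m c = some c') : RT m c c' 1 :=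
  ⟨1, le_refl _, by simpa [flip] using h⟩

theorem RT.head {c c' c'' : TM2.Cfg Γ Λ σ} {n : ℕ} (h : TM2.step m c = some c')
    (h' : RT m c' c'' n) : RT m c c'' (n + 1) := by
  have := (RT.step h).trans h'
  rwa [Nat.add_comm] at this

end RTlemmas

section setup

variable (K : Type) {ι : Type} (M : ι → FinTM2)

/-- stacks of the big machine -/
abbrev KK : Type := Option K ⊕ (Σ i, (M i).K)

/-- alphabets of the big machine -/
@[reducible] def GG : KK K M → Type
  | .inl _ => Bool
  | .inr x => (M x.1).Γ x.2

/-- states of the big machine -/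
abbrev SS : Type := Option Bool × (∀ i, (M i).σ)

/-- initial state of the big machine -/
def s0 : SS M := (none, fun i => (M i).initialState)

variable {K}

/-- the stores of the big machine -/
def st (S : K → List Bool) (t : List Bool) (W : ∀ i k, List ((M i).Γ k)) :
    ∀ k', List (GG K M k')
  | .inl (some k) => S k
  | .inl none => t
  | .inr x => W x.1 x.2

/-- labels -/
def Lab : Prog K ι → Type
  | .skip => Unit
  | .push _ _ => Unit
  | .pop _ => Unit
  | .seq a b => Lab a ⊕ Lab b
  | .ite _ _ a b => Option (Lab a ⊕ Lab b)
  | .loop _ _ a => Option (Lab a)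
  | .call i _ => Fin 4 ⊕ (M i).Λ

@[instance_reducible] noncomputable def labFintype : (p : Prog K ι) → Fintype (Lab M p)
  | .skip => inferInstanceAs (Fintype Unit)
  | .push _ _ => inferInstanceAs (Fintype Unit)
  | .pop _ => inferInstanceAs (Fintype Unit)
  | .seq a b => by
      have := labFintype a
      have := labFintype b
      exact inferInstanceAs (Fintype (Lab M a ⊕ Lab M b))
  | .ite _ _ a b => by
      have := labFintype a
      have := labFintype b
      exact inferInstanceAs (Fintype (Option (Lab M a ⊕ Lab M b)))
  | .loop _ _ a => by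
      have := labFintype a
      exact inferInstanceAs (Fintype (Option (Lab M a)))
  | .call i _ => by
      have := (M i).ΛFin
      exact inferInstanceAs (Fintype (Fin 4 ⊕ (M i).Λ))

/-- entry label -/
def start : (p : Prog K ι) → Lab M p
  | .skip => ()
  | .push _ _ => ()
  | .pop _ => ()
  | .seq a _ => .inl (start a)
  | .ite _ _ _ _ => none
  | .loop _ _ _ => none
  | .call _ _ => .inl 0

variable [DecidableEq ι]

/-- embedding of the statements of the machine `i` -/
def embS (i : ι) {Λ : Type} (em : (M i).Λ → Λ) (r : Λ) :
    TM2.Stmt (M i).Γ (M i).Λ (M i).σ → TM2.Stmt (GG K M) Λ (SS M)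
  | .push k f q => .push (.inr ⟨i, k⟩) (fun s => f (s.2 i)) (embS i em r q)
  | .peek k f q => .peek (.inr ⟨i, k⟩)
      (fun s o => (s.1, Function.update s.2 i (f (s.2 i) o))) (embS i em r q)
  | .pop k f q => .pop (.inr ⟨i, k⟩)
      (fun s o => (s.1, Function.update s.2 i (f (s.2 i) o))) (embS i em r q)
  | .load f q => .load (fun s => (s.1, Function.update s.2 i (f (s.2 i)))) (embS i em r q)
  | .branch f q₁ q₂ => .branch (fun s => f (s.2 i)) (embS i em r q₁) (embS i em r q₂)
  | .goto f => .goto (fun s => em (f (s.2 i)))
  | .halt => .goto (fun _ => r)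

variable (ain : ∀ i, (M i).Γ (M i).k₀ ≃ Bool) (aout : ∀ i, (M i).Γ (M i).k₁ ≃ Bool)

/-- the compiled code -/
def code : (p : Prog K ι) → {Λ : Type} → (Lab M p → Λ) → Λ → Lab M p →
    TM2.Stmt (GG K M) Λ (SS M)
  | .skip, _, _, ex, _ => .goto fun _ => ex
  | .push k b, _, _, ex, _ => .push (.inl (some k)) (fun _ => b) (.goto fun _ => ex)
  | .pop k, _, _, ex, _ => .pop (.inl (some k)) (fun s _ => s) (.goto fun _ => ex)
  | .seq a b, _, e, ex, l =>
    match l with
    | .inl l => code a (fun l => e (.inl l)) (e (.inr (start M b))) l
    | .inr l => code b (fun l => e (.inr l)) ex l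
  | .ite k c a b, _, e, ex, l =>
    match l with
    | none => .peek (.inl (some k)) (fun s o => (o, s.2)) (.branch (fun s => c s.1)
        (.load (fun s => (none, s.2)) (.goto fun _ => e (some (.inl (start M a)))))
        (.load (fun s => (none, s.2)) (.goto fun _ => e (some (.inr (start M b))))))
    | some (.inl l) => code a (fun l => e (some (.inl l))) ex l
    | some (.inr l) => code b (fun l => e (some (.inr l))) ex l
  | .loop k c a, _, e, ex, l =>
    match l with
    | none => .peek (.inl (some k)) (fun s o => (o, s.2)) (.branch (fun s => c s.1)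
        (.load (fun s => (none, s.2)) (.goto fun _ => e (some (start M a))))
        (.load (fun s => (none, s.2)) (.goto fun _ => ex)))
    | some l => code a (fun l => e (some l)) (e none) l
  | .call i k, _, e, ex, l =>
    match l with
    | .inl 0 => .pop (.inl (some k)) (fun s o => (o, s.2)) (.branch (fun s => s.1.isSome)
        (.push (.inl none) (fun s => s.1.getD false)
          (.load (fun s => (none, s.2)) (.goto fun _ => e (.inl 0))))
        (.load (fun s => (none, s.2)) (.goto fun _ => e (.inl 1))))
    | .inl 1 => .pop (.inl none) (fun s o => (o, s.2)) (.branch (fun s => s.1.isSome)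
        (.push (.inr ⟨i, (M i).k₀⟩) (fun s => (ain i).symm (s.1.getD false))
          (.load (fun s => (none, s.2)) (.goto fun _ => e (.inl 1))))
        (.load (fun s => (none, s.2)) (.goto fun _ => e (.inr (M i).main))))
    | .inl 2 => .pop (.inr ⟨i, (M i).k₁⟩) (fun s o => (Option.map (aout i) o, s.2))
        (.branch (fun s => s.1.isSome)
        (.push (.inl none) (fun s => s.1.getD false)
          (.load (fun s => (none, s.2)) (.goto fun _ => e (.inl 2))))
        (.load (fun s => (none, s.2)) (.goto fun _ => e (.inl 3))))
    | .inl 3 => .pop (.inl none) (fun s o => (o, s.2)) (.branch (fun s => s.1.isSome)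
        (.push (.inl (some k)) (fun s => s.1.getD false)
          (.load (fun s => (none, s.2)) (.goto fun _ => e (.inl 3))))
        (.load (fun s => (none, s.2)) (.goto fun _ => ex)))
    | .inr l => embS M i (fun l => e (.inr l)) (e (.inl 2)) ((M i).m l)

end setup

section lemmas

variable {K ι : Type} [DecidableEq K] [DecidableEq ι] (M : ι → FinTM2)

instance : DecidableEq (KK K M) := inferInstance

@[simp] theorem st_some (S : K → List Bool) (t : List Bool) (W : ∀ i k, List ((M i).Γ k)) (k : K) :
    st M S t W (.inl (some k)) = S k := rfl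

@[simp] theorem st_none (S : K → List Bool) (t : List Bool) (W : ∀ i k, List ((M i).Γ k)) :
    st M S t W (.inl none) = t := rfl

@[simp] theorem st_inr (S : K → List Bool) (t : List Bool) (W : ∀ i k, List ((M i).Γ k)) (i : ι)
    (k : (M i).K) : st M S t W (.inr ⟨i, k⟩) = W i k := rfl

@[simp] theorem update_st_some (S : K → List Bool) (t : List Bool)
    (W : ∀ i k, List ((M i).Γ k)) (k : K) (v : List Bool) :
    Function.update (st M S t W) (.inl (some k)) v = st M (Function.update S k v) t W := by
  funext k'
  rcases k' with (_ | k') | x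
  · rw [Function.update_of_ne (by simp)]; rfl
  · by_cases h : k' = k
    · subst h
      rw [Function.update_self, st_some, Function.update_self]
    · rw [Function.update_of_ne (by simpa using h), st_some, st_some, Function.update_of_ne h]
  · rw [Function.update_of_ne (by simp)]; rfl

@[simp] theorem update_st_none (S : K → List Bool) (t : List Bool)
    (W : ∀ i k, List ((M i).Γ k)) (v : List Bool) :
    Function.update (st M S t W) (.inl none) v = st M S v W := by
  funext k'
  rcases k' with (_ | k') | x
  · rw [Function.update_self]; rfl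
  · rw [Function.update_of_ne (by simp)]; rfl
  · rw [Function.update_of_ne (by simp)]; rfl

@[simp] theorem update_st_inr (S : K → List Bool) (t : List Bool)
    (W : ∀ i k, List ((M i).Γ k)) (i : ι) (k : (M i).K) (v : List ((M i).Γ k)) :
    Function.update (st M S t W) (.inr ⟨i, k⟩) v =
      st M S t (Function.update W i (Function.update (W i) k v)) := by
  funext k'
  rcases k' with (_ | k') | ⟨j, k'⟩
  · rw [Function.update_of_ne (by simp)]; rfl
  · rw [Function.update_of_ne (by simp)]; rfl
  · by_cases h : j = i
    · subst h
      by_cases h2 : k' = k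
      · subst h2
        rw [Function.update_self, st_inr, Function.update_self, Function.update_self]
      · rw [Function.update_of_ne (by simpa using h2), st_inr, st_inr, Function.update_self,
          Function.update_of_ne h2]
    · rw [Function.update_of_ne (by
        intro h3
        rw [Sum.inr.injEq, Sigma.mk.injEq] at h3
        exact h h3.1), st_inr, st_inr, Function.update_of_ne h]

theorem updW0 (i : ι) (k' : (M i).K) :
    Function.update (β := fun i => ∀ k : (M i).K, List ((M i).Γ k)) (fun _ _ => []) i
      (Function.update (β := fun k => List ((M i).Γ k)) (fun _ => []) k' []) =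
        fun _ _ => [] := by
  rw [Function.update_eq_self_iff]
  rw [Function.update_eq_self_iff]

/-- embedding of configurations of the machine `i` -/
def embC (i : ι) {Λ : Type} (em : (M i).Λ → Λ) (r : Λ) (S : K → List Bool) (t : List Bool)
    (o : Option Bool) (V : ∀ i, (M i).σ) (W : ∀ i k, List ((M i).Γ k))
    (c : TM2.Cfg (M i).Γ (M i).Λ (M i).σ) : TM2.Cfg (GG K M) Λ (SS M) :=
  ⟨some (c.l.elim r em), (o, Function.update V i c.var), st M S t (Function.update W i c.stk)⟩

theorem emb_stepAux (i : ι) {Λ : Type} (em : (M i).Λ → Λ) (r : Λ) (S : K → List Bool)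
    (t : List Bool) (o : Option Bool) (V : ∀ i, (M i).σ) (W : ∀ i k, List ((M i).Γ k))
    (q : TM2.Stmt (M i).Γ (M i).Λ (M i).σ) (v : (M i).σ) (Si : ∀ k, List ((M i).Γ k)) :
    TM2.stepAux (embS M i em r q) (o, Function.update V i v) (st M S t (Function.update W i Si)) =
      embC M i em r S t o V W (TM2.stepAux q v Si) := by
  induction q generalizing v Si with
  | push k f q ih =>
    simp only [embS, TM2.stepAux, Function.update_self, st_inr, update_st_inr,
      Function.update_idem]
    exact ih v _
  | peek k f q ih =>
    simp only [embS, TM2.stepAux, Function.update_self, st_inr, Function.update_idem]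
    exact ih _ _
  | pop k f q ih =>
    simp only [embS, TM2.stepAux, Function.update_self, st_inr, update_st_inr,
      Function.update_idem]
    exact ih _ _
  | load f q ih =>
    simp only [embS, TM2.stepAux, Function.update_self, Function.update_idem]
    exact ih _ _
  | branch f q₁ q₂ ih₁ ih₂ =>
    simp only [embS, TM2.stepAux, Function.update_self]
    cases f v
    · exact ih₂ v Si
    · exact ih₁ v Si
  | goto f =>
    simp only [embS, TM2.stepAux, Function.update_self, embC, Option.elim]
  | halt =>
    simp only [embS, TM2.stepAux, embC, Option.elim]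

theorem emb_step (i : ι) {Λ : Type} (m : Λ → TM2.Stmt (GG K M) Λ (SS M)) (em : (M i).Λ → Λ)
    (r : Λ) (hm : ∀ l, m (em l) = embS M i em r ((M i).m l)) (S : K → List Bool)
    (t : List Bool) (o : Option Bool) (V : ∀ i, (M i).σ) (W : ∀ i k, List ((M i).Γ k))
    (c c' : TM2.Cfg (M i).Γ (M i).Λ (M i).σ) (h : TM2.step (M i).m c = some c') :
    TM2.step m (embC M i em r S t o V W c) = some (embC M i em r S t o V W c') := by
  obtain ⟨l, v, Si⟩ := c
  cases l with
  | none => simp [TM2.step] at h
  | some l =>
    simp only [TM2.step, Option.some.injEq] at h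
    subst h
    simp only [embC, Option.elim, TM2.step, hm]
    rw [emb_stepAux]
    rfl

theorem emb_run (i : ι) {Λ : Type} (m : Λ → TM2.Stmt (GG K M) Λ (SS M)) (em : (M i).Λ → Λ)
    (r : Λ) (hm : ∀ l, m (em l) = embS M i em r ((M i).m l)) (S : K → List Bool)
    (t : List Bool) (o : Option Bool) (V : ∀ i, (M i).σ) (W : ∀ i k, List ((M i).Γ k)) (n : ℕ)
    (c c' : TM2.Cfg (M i).Γ (M i).Λ (M i).σ) (h : RT (M i).m c c' n) :
    RT m (embC M i em r S t o V W c) (embC M i em r S t o V W c') n := by
  obtain ⟨j, hj, h⟩ := h
  refine ⟨j, hj, ?_⟩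
  clear hj
  induction j generalizing c with
  | zero =>
    simp only [Function.iterate_zero, id, Option.some.injEq] at h
    rw [h]; rfl
  | succ j ih =>
    rw [Function.iterate_succ_apply] at h ⊢
    have h1 : flip bind (TM2.step (M i).m) (some c) = TM2.step (M i).m c := rfl
    rw [h1] at h
    cases hc : TM2.step (M i).m c with
    | none =>
      rw [hc] at h
      have : ∀ j, (flip bind (TM2.step (M i).m))^[j] none = none := by
        intro j
        induction j with
        | zero => rfl
        | succ j ih => rw [Function.iterate_succ_apply]; exact ih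
      rw [this] at h
      cases h
    | some c1 =>
      rw [hc] at h
      have h2 : flip bind (TM2.step m) (some (embC M i em r S t o V W c)) =
          TM2.step m (embC M i em r S t o V W c) := rfl
      rw [h2, emb_step M i m em r hm S t o V W c c1 hc]
      exact ih c1 h

variable {M}

theorem loop0 {Λ : Type} {m : Λ → TM2.Stmt (GG K M) Λ (SS M)} {k : K} {L L' : Λ}
    (hm : m L = .pop (.inl (some k)) (fun s o => (o, s.2)) (.branch (fun s => s.1.isSome)
        (.push (.inl none) (fun s => s.1.getD false)
          (.load (fun s => (none, s.2)) (.goto fun _ => L)))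
        (.load (fun s => (none, s.2)) (.goto fun _ => L'))))
    (S : K → List Bool) (V : ∀ i, (M i).σ) (W : ∀ i k, List ((M i).Γ k)) (x t : List Bool) :
    RT m ⟨some L, (none, V), st M (Function.update S k x) t W⟩
      ⟨some L', (none, V), st M (Function.update S k []) (x.reverse ++ t) W⟩ (x.length + 1) := by
  induction x generalizing t with
  | nil =>
    exact RT.step (by simp [TM2.step, hm, TM2.stepAux])
  | cons b x ih =>
    refine RT.head (c' := ⟨some L, (none, V), st M (Function.update S k x) (b :: t) W⟩)
      (by simp [TM2.step, hm, TM2.stepAux]) ?_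
    simpa using ih (b :: t)

theorem loop3 {Λ : Type} {m : Λ → TM2.Stmt (GG K M) Λ (SS M)} {k : K} {L L' : Λ}
    (hm : m L = .pop (.inl none) (fun s o => (o, s.2)) (.branch (fun s => s.1.isSome)
        (.push (.inl (some k)) (fun s => s.1.getD false)
          (.load (fun s => (none, s.2)) (.goto fun _ => L)))
        (.load (fun s => (none, s.2)) (.goto fun _ => L'))))
    (S : K → List Bool) (V : ∀ i, (M i).σ) (W : ∀ i k, List ((M i).Γ k)) (x t : List Bool) :
    RT m ⟨some L, (none, V), st M (Function.update S k t) x W⟩
      ⟨some L', (none, V), st M (Function.update S k (x.reverse ++ t)) [] W⟩ (x.length + 1) := by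
  induction x generalizing t with
  | nil =>
    exact RT.step (by simp [TM2.step, hm, TM2.stepAux])
  | cons b x ih =>
    refine RT.head (c' := ⟨some L, (none, V), st M (Function.update S k (b :: t)) x W⟩)
      (by simp [TM2.step, hm, TM2.stepAux]) ?_
    simpa using ih (b :: t)

theorem loop1 {Λ : Type} {m : Λ → TM2.Stmt (GG K M) Λ (SS M)} {i : ι} {k₀ : (M i).K}
    (ain : (M i).Γ k₀ ≃ Bool) {L L' : Λ}
    (hm : m L = .pop (.inl none) (fun s o => (o, s.2)) (.branch (fun s => s.1.isSome)
        (.push (.inr ⟨i, k₀⟩) (fun s => ain.symm (s.1.getD false))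
          (.load (fun s => (none, s.2)) (.goto fun _ => L)))
        (.load (fun s => (none, s.2)) (.goto fun _ => L'))))
    (S : K → List Bool) (V : ∀ i, (M i).σ) (W : ∀ i k, List ((M i).Γ k)) (x : List Bool)
    (y : List ((M i).Γ k₀)) :
    RT m ⟨some L, (none, V), st M S x (Function.update W i (Function.update (W i) k₀ y))⟩
      ⟨some L', (none, V), st M S []
        (Function.update W i (Function.update (W i) k₀ (x.reverse.map ain.symm ++ y)))⟩
        (x.length + 1) := by
  induction x generalizing y with
  | nil =>
    exact RT.step (by simp [TM2.step, hm, TM2.stepAux])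
  | cons b x ih =>
    refine RT.head (c' := ⟨some L, (none, V), st M S x
      (Function.update W i (Function.update (W i) k₀ (ain.symm b :: y)))⟩)
      (by simp [TM2.step, hm, TM2.stepAux]) ?_
    simpa using ih (ain.symm b :: y)

theorem loop2 {Λ : Type} {m : Λ → TM2.Stmt (GG K M) Λ (SS M)} {i : ι} {k₁ : (M i).K}
    (aout : (M i).Γ k₁ ≃ Bool) {L L' : Λ}
    (hm : m L = .pop (.inr ⟨i, k₁⟩) (fun s o => (Option.map aout o, s.2))
        (.branch (fun s => s.1.isSome)
        (.push (.inl none) (fun s => s.1.getD false)
          (.load (fun s => (none, s.2)) (.goto fun _ => L)))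
        (.load (fun s => (none, s.2)) (.goto fun _ => L'))))
    (S : K → List Bool) (V : ∀ i, (M i).σ) (W : ∀ i k, List ((M i).Γ k)) (x : List Bool)
    (t : List Bool) :
    RT m ⟨some L, (none, V), st M S t
        (Function.update W i (Function.update (W i) k₁ (x.map aout.symm)))⟩
      ⟨some L', (none, V), st M S (x.reverse ++ t)
        (Function.update W i (Function.update (W i) k₁ []))⟩
        (x.length + 1) := by
  induction x generalizing t with
  | nil =>
    exact RT.step (by simp [TM2.step, hm, TM2.stepAux])
  | cons b x ih =>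
    refine RT.head (c' := ⟨some L, (none, V), st M S (b :: t)
      (Function.update W i (Function.update (W i) k₁ (x.map aout.symm)))⟩)
      (by simp [TM2.step, hm, TM2.stepAux]) ?_
    simpa using ih (b :: t)

theorem compile_run {ain : ∀ i, (M i).Γ (M i).k₀ ≃ Bool} {aout : ∀ i, (M i).Γ (M i).k₁ ≃ Bool}
    {F : ι → List Bool → List Bool} {T : ι → Polynomial ℕ}
    (hM : ∀ i x, RT (M i).m
      ⟨some (M i).main, (M i).initialState,
        Function.update (fun _ => []) (M i).k₀ (x.map (ain i).symm)⟩
      ⟨none, (M i).initialState,
        Function.update (fun _ => []) (M i).k₁ ((F i x).map (aout i).symm)⟩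
      ((T i).eval x.length))
    {P : Prog K ι} {S S' : K → List Bool} {t : ℕ} (h : Run F T P S t S') :
    ∀ {Λ : Type} (m : Λ → TM2.Stmt (GG K M) Λ (SS M)) (e : Lab M P → Λ) (ex : Λ),
      (∀ l, m (e l) = code M ain aout P e ex l) →
      RT m ⟨some (e (start M P)), s0 M, st M S [] (fun _ _ => [])⟩
        ⟨some ex, s0 M, st M S' [] (fun _ _ => [])⟩ t := by
  induction h with
  | skip S =>
    intro Λ m e ex hm
    have := hm ()
    exact RT.step (by simp [start, TM2.step, this, code, TM2.stepAux])
  | push k b S =>
    intro Λ m e ex hm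
    have := hm ()
    exact RT.step (by simp [start, TM2.step, this, code, TM2.stepAux])
  | pop k S =>
    intro Λ m e ex hm
    have := hm ()
    exact RT.step (by simp [start, TM2.step, this, code, TM2.stepAux])
  | seq h1 h2 ih1 ih2 =>
    intro Λ m e ex hm
    exact (ih1 m _ _ (fun l => hm (.inl l))).trans (ih2 m _ _ (fun l => hm (.inr l)))
  | @ite_true k c P Q S S' t hc h1 ih =>
    intro Λ m e ex hm
    have := hm none
    refine RT.head ?_ (ih m _ _ (fun l => hm (some (.inl l))))
    simp [start, TM2.step, this, code, TM2.stepAux, hc, s0]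
  | @ite_false k c P Q S S' t hc h1 ih =>
    intro Λ m e ex hm
    have := hm none
    refine RT.head ?_ (ih m _ _ (fun l => hm (some (.inr l))))
    simp [start, TM2.step, this, code, TM2.stepAux, hc, s0]
  | @loop_done k c P S hc =>
    intro Λ m e ex hm
    have := hm none
    refine RT.step ?_
    simp [start, TM2.step, this, code, TM2.stepAux, hc, s0]
  | @loop_step k c P S S₁ S₂ t₁ t₂ hc h1 h2 ih1 ih2 =>
    intro Λ m e ex hm
    have := hm none
    refine RT.head ?_ ((ih1 m _ _ (fun l => hm (some l))).trans (ih2 m e ex hm))
    simp [start, TM2.step, this, code, TM2.stepAux, hc, s0]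
  | call i k S =>
    intro Λ m e ex hm
    have h0 := loop0 (hm (.inl 0)) S (fun i => (M i).initialState) (fun _ _ => []) (S k) []
    have h1 := loop1 (ain i) (hm (.inl 1)) (Function.update S k [])
      (fun i => (M i).initialState) (fun _ _ => []) (S k).reverse []
    have h2 := emb_run M i m (fun l => e (.inr l)) (e (.inl 2)) (fun l => hm (.inr l))
      (Function.update S k []) [] none (fun i => (M i).initialState) (fun _ _ => []) _ _ _
      (hM i (S k))
    have h3 := loop2 (aout i) (hm (.inl 2)) (Function.update S k [])
      (fun i => (M i).initialState) (fun _ _ => []) (F i (S k)) []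
    have h4 := loop3 (hm (.inl 3)) S (fun i => (M i).initialState) (fun _ _ => [])
      (F i (S k)).reverse []
    have hW := updW0 M i
    have hV : Function.update (fun i => (M i).initialState) i (M i).initialState =
        (fun i => (M i).initialState) := by
      rw [Function.update_eq_self_iff]
    simp only [Function.update_eq_self, List.append_nil, List.length_reverse,
      List.reverse_reverse] at h0 h1 h3 h4
    simp only [embC, Option.elim, hV] at h2
    have h5 := h0.trans (h1.trans (h2.trans (h3.trans h4)))
    refine RT.mono h5 (by omega)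
  | mono h1 hle ih =>
    intro Λ m e ex hm
    exact (ih m e ex hm).mono hle

end lemmas

end Comp

namespace Comp

/-- the big machine -/
noncomputable def big {K ι : Type} [Fintype K] [DecidableEq K] [Fintype ι] [DecidableEq ι]
    (M : ι → FinTM2) (ain : ∀ i, (M i).Γ (M i).k₀ ≃ Bool) (aout : ∀ i, (M i).Γ (M i).k₁ ≃ Bool)
    (P : Prog K ι) (kin kout : K) : FinTM2 :=
  haveI : ∀ i, Fintype (M i).K := fun i => (M i).kFin
  haveI : ∀ i, Fintype (M i).σ := fun i => (M i).σFin
  haveI : Fintype (Lab M P) := labFintype M P
  { K := KK K M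
    kDecidableEq := inferInstance
    kFin := inferInstance
    k₀ := .inl (some kin)
    k₁ := .inl (some kout)
    Γ := GG K M
    Λ := Option (Lab M P)
    main := some (start M P)
    ΛFin := inferInstance
    σ := SS M
    initialState := s0 M
    σFin := inferInstance
    Γk₀Fin := inferInstanceAs (Fintype Bool)
    m := fun l => match l with
      | none => TM2.Stmt.halt
      | some l => code M ain aout P some none l }

theorem init_eq {K ι : Type} [Fintype K] [DecidableEq K] [Fintype ι] [DecidableEq ι]
    (M : ι → FinTM2) (ain : ∀ i, (M i).Γ (M i).k₀ ≃ Bool) (aout : ∀ i, (M i).Γ (M i).k₁ ≃ Bool)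
    (P : Prog K ι) (kin kout : K) (x : List Bool) :
    initList (big M ain aout P kin kout) x =
      ⟨some (some (start M P)), s0 M, st M (single kin x) [] (fun _ _ => [])⟩ := by
  unfold initList
  congr 1
  funext k
  rcases k with (_ | k) | y
  · exact dif_neg (by simp [big])
  · by_cases h : k = kin
    · subst h
      refine (dif_pos rfl).trans ?_
      simp [st, single]
      rfl
    · refine (dif_neg (by simpa [big] using h)).trans ?_
      simp [st, single, h]
      rfl
  · exact dif_neg (by simp [big])

theorem halt_eq {K ι : Type} [Fintype K] [DecidableEq K] [Fintype ι] [DecidableEq ι]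
    (M : ι → FinTM2) (ain : ∀ i, (M i).Γ (M i).k₀ ≃ Bool) (aout : ∀ i, (M i).Γ (M i).k₁ ≃ Bool)
    (P : Prog K ι) (kin kout : K) (x : List Bool) :
    haltList (big M ain aout P kin kout) x =
      ⟨none, s0 M, st M (single kout x) [] (fun _ _ => [])⟩ := by
  unfold haltList
  congr 1
  funext k
  rcases k with (_ | k) | y
  · exact dif_neg (by simp [big])
  · by_cases h : k = kout
    · subst h
      refine (dif_pos rfl).trans ?_
      simp [st, single]
      rfl
    · refine (dif_neg (by simpa [big] using h)).trans ?_
      simp [st, single, h]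
      rfl
  · exact dif_neg (by simp [big])

theorem initList_eq (tm : FinTM2) (x : List (tm.Γ tm.k₀)) :
    initList tm x = ⟨some tm.main, tm.initialState, Function.update (fun _ => []) tm.k₀ x⟩ := by
  unfold initList
  congr 1
  funext k
  by_cases h : k = tm.k₀
  · subst h
    refine (dif_pos rfl).trans ?_
    simp
  · refine (dif_neg h).trans ?_
    rw [Function.update_of_ne h]

theorem haltList_eq (tm : FinTM2) (x : List (tm.Γ tm.k₁)) :
    haltList tm x = ⟨none, tm.initialState, Function.update (fun _ => []) tm.k₁ x⟩ := by
  unfold haltList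
  congr 1
  funext k
  by_cases h : k = tm.k₁
  · subst h
    refine (dif_pos rfl).trans ?_
    simp
  · refine (dif_neg h).trans ?_
    rw [Function.update_of_ne h]

end Comp

/-- **The compiler theorem.**  If a program with calls to polynomial time functions `F i` computes
`f` (input alone on the stack `kin`, output alone on the stack `kout`) within polynomial cost, then
`f` is polynomial time. -/
theorem polyTime_of_run {K ι : Type} [Fintype K] [DecidableEq K] [Fintype ι] [DecidableEq ι]
    (F : ι → List Bool → List Bool) (hF : ∀ i, PolyTime (F i)) (P : Prog K ι) (kin kout : K)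
    (f : List Bool → List Bool)
    (h : ∀ T : ι → Polynomial ℕ, ∃ p : Polynomial ℕ, ∀ x : List Bool,
      Run F T P (single kin x) (p.eval x.length) (single kout (f x))) :
    PolyTime f := by
  classical
  let C := fun i => Classical.choice (hF i)
  let M : ι → FinTM2 := fun i => (C i).tm
  let ain : ∀ i, (M i).Γ (M i).k₀ ≃ Bool := fun i => (C i).inputAlphabet
  let aout : ∀ i, (M i).Γ (M i).k₁ ≃ Bool := fun i => (C i).outputAlphabet
  let T : ι → Polynomial ℕ := fun i => (C i).time
  have hM : ∀ i x, Comp.RT (M i).m
      ⟨some (M i).main, (M i).initialState,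
        Function.update (fun _ => []) (M i).k₀ (x.map (ain i).symm)⟩
      ⟨none, (M i).initialState,
        Function.update (fun _ => []) (M i).k₁ ((F i x).map (aout i).symm)⟩
      ((T i).eval x.length) := by
    intro i x
    obtain ⟨⟨n, h2⟩, h3⟩ := (C i).outputsFun x
    rw [Comp.initList_eq] at h2
    refine ⟨n, h3, ?_⟩
    refine h2.trans ?_
    simp only [Option.map_some]
    rw [Comp.haltList_eq]
    rfl
  obtain ⟨p, hp⟩ := h T
  refine ⟨⟨⟨Comp.big M ain aout P kin kout, Equiv.refl Bool, Equiv.refl Bool⟩, p + 1, fun x => ?_⟩⟩
  have h1 := Comp.compile_run hM (hp x) (Comp.big M ain aout P kin kout).m some none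
    (fun l => rfl)
  have h2 := h1.trans (Comp.RT.step (c' := ⟨none, Comp.s0 M,
    Comp.st M (single kout (f x)) [] (fun _ _ => [])⟩) rfl)
  have e1 : List.map (Equiv.refl Bool).invFun ((Computability.encodingList Bool).encode x) = x :=
    List.map_id x
  have e2 : List.map (Equiv.refl Bool).invFun
      ((Computability.encodingList Bool).encode (f x)) = f x :=
    List.map_id (f x)
  refine ⟨⟨h2.choose, ?_⟩, ?_⟩
  · have h3 := h2.choose_spec.2
    refine Eq.trans ?_ (h3.trans ?_)
    · refine congrArg _ (congrArg some ?_)
      refine Eq.trans ?_ (Comp.init_eq M ain aout P kin kout x)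
      exact congrArg _ e1
    · simp only [Option.map_some]
      refine congrArg some ?_
      refine (Comp.halt_eq M ain aout P kin kout (f x)).symm.trans ?_
      exact congrArg _ e2.symm
  · refine h2.choose_spec.1.trans ?_
    simp [Computability.encodingList]

end Crest.Agent.PolyT
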