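import Crest.Agent.Lib.PolyTime.Prog

/-!
# Polynomial time toolkit, level 1: codes of pairs (definitions)
-/

set_option autoImplicit false

namespace Crest.Agent.PolyT

open Crest.Complexity

/-- self-delimiting code of a string -/
def delim (u : List Bool) : List Bool := (u.flatMap fun b => [true, b]) ++ [false]

/-- code of a pair of strings -/
def pairCode (u v : List Bool) : List Bool := delim u ++ v

/-- first component of a pair code (total: junk on other strings) -/
def fstCode : List Bool → List Bool
  | true :: b :: w => b :: fstCode w
  | _ => []

/-- second component of a pair code (total: junk on other strings) -/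
def sndCode : List Bool → List Bool
  | true :: _ :: w => sndCode w
  | false :: w => w
  | _ => []

@[simp] theorem delim_nil : delim [] = [false] := rfl

@[simp] theorem delim_cons (b : Bool) (u : List Bool) : delim (b :: u) = true :: b :: delim u := rfl

@[simp] theorem length_delim (u : List Bool) : (delim u).length = 2 * u.length + 1 := by
  induction u with
  | nil => rfl
  | cons b u ih => simp [ih]; ring

@[simp] theorem length_pairCode (u v : List Bool) :
    (pairCode u v).length = 2 * u.length + 1 + v.length := by
  simp [pairCode]

@[simp] theorem fstCode_pairCode (u v : List Bool) : fstCode (pairCode u v) = u := by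
  induction u with
  | nil => rfl
  | cons b u ih =>
    simp only [pairCode, delim_cons, List.cons_append, fstCode] at ih ⊢
    rw [ih]

@[simp] theorem sndCode_pairCode (u v : List Bool) : sndCode (pairCode u v) = v := by
  induction u with
  | nil => rfl
  | cons b u ih =>
    simp only [pairCode, delim_cons, List.cons_append, sndCode] at ih ⊢
    rw [ih]

theorem pairCode_inj {u v u' v' : List Bool} (h : pairCode u v = pairCode u' v') :
    u = u' ∧ v = v' := by
  refine ⟨?_, ?_⟩
  · have := congrArg fstCode h; simpa using this
  · have := congrArg sndCode h; simpa using this

theorem length_fstCode_le : ∀ x : List Bool, (fstCode x).length ≤ x.length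
  | [] => by simp [fstCode]
  | [true] => by simp [fstCode]
  | true :: b :: w => by
    have := length_fstCode_le w
    simp only [fstCode, List.length_cons]; omega
  | false :: w => by simp [fstCode]

theorem length_sndCode_le : ∀ x : List Bool, (sndCode x).length ≤ x.length
  | [] => by simp [sndCode]
  | [true] => by simp [sndCode]
  | true :: b :: w => by
    have := length_sndCode_le w
    simp only [sndCode, List.length_cons]; omega
  | false :: w => by simp [sndCode]

end Crest.Agent.PolyT
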