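import Crest.Agent.Lib.PolyTime.Prog

/-! # PT_LEN: the output of a polynomial time function has polynomial length

Proof sketch.  Unfold `PolyTime`: a machine `tm : FinTM2` with `outputsFun` (a `TM2OutputsInTime`:
`steps ≤ time.eval |x|` and `(flip bind tm.step)^[steps] (some init) = some halt`).
For a statement `q : TM2.Stmt Γ Λ σ` let `pushes q : ℕ` be the number of `push` on the longest branch;
by induction on `q`: for every stack `k`,
`(TM2.stepAux q v S).stk k |>.length ≤ (S k).length + pushes q`.  Let `c := ∑ l : Λ, pushes (m l)`
(finite).  One `step` increases every stack by at most `c`, so after `n` steps stack `k₁` has length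
`≤ (initial length ≤ |x|) + c * n ≤ |x| + c * time.eval |x|`.  Take `q := X + C c * time`. -/

set_option autoImplicit false

namespace Crest.Agent.PolyT

open Crest.Complexity

namespace CoreLenaux

open Turing

/-- number of `push` in a statement -/
def pushes {K : Type} {Γ : K → Type} {Λ σ : Type} : TM2.Stmt Γ Λ σ → ℕ
  | .push _ _ q => pushes q + 1
  | .peek _ _ q => pushes q
  | .pop _ _ q => pushes q
  | .load _ q => pushes q
  | .branch _ q₁ q₂ => pushes q₁ + pushes q₂
  | .goto _ => 0
  | .halt => 0

theorem stepAux_len {K : Type} [DecidableEq K] {Γ : K → Type} {Λ σ : Type}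
    (q : TM2.Stmt Γ Λ σ) : ∀ (v : σ) (S : ∀ k, List (Γ k)) (k : K),
    ((TM2.stepAux q v S).stk k).length ≤ (S k).length + pushes q := by
  induction q with
  | push k' f q ih =>
    intro v S k
    rw [TM2.stepAux]
    refine (ih _ _ _).trans ?_
    simp only [pushes]
    by_cases h : k = k'
    · subst h
      rw [Function.update_self, List.length_cons]
      omega
    · rw [Function.update_of_ne h]
      omega
  | peek k' f q ih =>
    intro v S k
    rw [TM2.stepAux]
    exact ih _ _ _
  | pop k' f q ih =>
    intro v S k
    rw [TM2.stepAux]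
    refine (ih _ _ _).trans ?_
    simp only [pushes]
    by_cases h : k = k'
    · subst h
      rw [Function.update_self, List.length_tail]
      omega
    · rw [Function.update_of_ne h]
  | load a q ih =>
    intro v S k
    rw [TM2.stepAux]
    exact ih _ _ _
  | branch f q₁ q₂ ih₁ ih₂ =>
    intro v S k
    rw [TM2.stepAux]
    simp only [pushes]
    cases f v
    · refine (ih₂ v S k).trans ?_
      omega
    · refine (ih₁ v S k).trans ?_
      omega
  | goto f =>
    intro v S k
    rw [TM2.stepAux]
    simp [pushes]
  | halt =>
    intro v S k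
    rw [TM2.stepAux]
    simp [pushes]

theorem step_len {K : Type} [DecidableEq K] {Γ : K → Type} {Λ σ : Type}
    (M : Λ → TM2.Stmt Γ Λ σ) (C : ℕ) (hC : ∀ l, pushes (M l) ≤ C) (c c' : TM2.Cfg Γ Λ σ)
    (h : TM2.step M c = some c') (k : K) : (c'.stk k).length ≤ (c.stk k).length + C := by
  obtain ⟨l, v, S⟩ := c
  cases l with
  | none => simp [TM2.step] at h
  | some l =>
    rw [TM2.step] at h
    injection h with h
    subst h
    refine (stepAux_len (M l) v S k).trans ?_
    have := hC l
    simp only
    omega

theorem iter_len {K : Type} [DecidableEq K] {Γ : K → Type} {Λ σ : Type}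
    (M : Λ → TM2.Stmt Γ Λ σ) (C : ℕ) (hC : ∀ l, pushes (M l) ≤ C) (n : ℕ) :
    ∀ (c c' : TM2.Cfg Γ Λ σ) (_ : (flip bind (TM2.step M))^[n] (some c) = some c') (k : K),
      (c'.stk k).length ≤ (c.stk k).length + C * n := by
  induction n with
  | zero =>
    intro c c' h k
    simp only [Function.iterate_zero, id_eq, Option.some.injEq] at h
    subst h
    simp
  | succ n ih =>
    intro c c' h k
    rw [Function.iterate_succ_apply'] at h
    generalize hd : (flip bind (TM2.step M))^[n] (some c) = d at h
    cases d with
    | none => simp [flip] at h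
    | some d =>
      have h1 : TM2.step M d = some c' := h
      have h2 := ih c d hd k
      have h3 := step_len M C hC d c' h1 k
      have h4 : C * (n + 1) = C * n + C := by ring
      omega

theorem init_len (tm : FinTM2) (s : List (tm.Γ tm.k₀)) (k : tm.K) :
    ((initList tm s).stk k).length ≤ s.length := by
  unfold initList
  simp only
  split_ifs with h
  · subst h
    exact le_rfl
  · simp

theorem halt_len (tm : FinTM2) (s : List (tm.Γ tm.k₁)) :
    ((haltList tm s).stk tm.k₁).length = s.length := by
  unfold haltList
  simp only
  split_ifs with h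
  · rfl
  · exact absurd trivial h

end CoreLenaux

open CoreLenaux in
theorem polyTime_length_le {f : List Bool → List Bool} (hf : PolyTime f) :
    ∃ q : Polynomial ℕ, ∀ x, (f x).length ≤ q.eval x.length := by
  obtain ⟨h⟩ := hf
  let := h.tm.ΛFin
  set C : ℕ := ∑ l : h.tm.Λ, pushes (h.tm.m l) with hCdef
  have hC : ∀ l, pushes (h.tm.m l) ≤ C := fun l =>
    Finset.single_le_sum (f := fun l => pushes (h.tm.m l)) (fun _ _ => Nat.zero_le _)
      (Finset.mem_univ l)
  refine ⟨Polynomial.X + Polynomial.C C * h.time, fun x => ?_⟩
  have ho := h.outputsFun x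
  obtain ⟨⟨n, hn⟩, hle⟩ := ho
  simp only at hle
  have h1 := iter_len h.tm.m C hC n _ _ hn h.tm.k₁
  have h2 := init_len h.tm (List.map h.inputAlphabet.invFun
    ((Computability.encodingList Bool).encode x)) h.tm.k₁
  have h3 := halt_len h.tm (List.map h.outputAlphabet.invFun
    ((Computability.encodingList Bool).encode (f x)))
  rw [List.length_map] at h2 h3
  have h4 : ((Computability.encodingList Bool).encode x).length = x.length := rfl
  have h5 : ((Computability.encodingList Bool).encode (f x)).length = (f x).length := rfl
  rw [h4] at h2 hle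
  rw [h5] at h3
  rw [Polynomial.eval_add, Polynomial.eval_X, Polynomial.eval_mul, Polynomial.eval_C]
  have h6 : C * n ≤ C * h.time.eval x.length := Nat.mul_le_mul_left _ hle
  have h7 : (f x).length ≤ _ := h3 ▸ h1
  omega

end Crest.Agent.PolyT
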