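import Crest.Agent.Lib.PolyTime.Prog

/-! # PT_PROGLIB: standard loops (clear, move, duplicate) with their costs -/

set_option autoImplicit false

namespace Crest.Agent.PolyT

variable {K ι : Type} [DecidableEq K] {F : ι → List Bool → List Bool} {T : ι → Polynomial ℕ}

/-- empty the stack `k` -/
def Prog.clear (k : K) : Prog K ι := Prog.loop k Option.isSome (Prog.pop k)

/-- move the top bit of `a` onto `t` -/
def Prog.move1 (a t : K) : Prog K ι :=
  Prog.ite a (fun o => o == some true)
    (Prog.seq (Prog.pop a) (Prog.push t true)) (Prog.seq (Prog.pop a) (Prog.push t false))

/-- move the stack `a` onto `t` (reversing it) -/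
def Prog.move (a t : K) : Prog K ι := Prog.loop a Option.isSome (Prog.move1 a t)

/-- move the stack `t` onto both `a` and `b` (reversing it) -/
def Prog.move2 (t a b : K) : Prog K ι :=
  Prog.loop t Option.isSome (Prog.ite t (fun o => o == some true)
    (Prog.seq (Prog.pop t) (Prog.seq (Prog.push a true) (Prog.push b true)))
    (Prog.seq (Prog.pop t) (Prog.seq (Prog.push a false) (Prog.push b false))))

/-- copy the stack `a` onto `b`, using the auxiliary stack `t` (which must be empty) -/
def Prog.dup (a t b : K) : Prog K ι := Prog.seq (Prog.move a t) (Prog.move2 t a b)

theorem run_of_eq {P : Prog K ι} {S S' S'' : K → List Bool} {t : ℕ} (h : Run F T P S t S')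
    (e : S' = S'') : Run F T P S t S'' := e ▸ h

theorem run_clear (k : K) (S : K → List Bool) :
    Run F T (Prog.clear k) S (2 * (S k).length + 1) (Function.update S k []) := by
  suffices ∀ (w : List Bool) (S : K → List Bool), S k = w →
      Run F T (Prog.clear k) S (2 * w.length + 1) (Function.update S k []) from this _ S rfl
  intro w
  induction w with
  | nil =>
    intro S h
    refine run_of_eq (Run.mono (Run.loop_done (by simp [h])) (by simp)) ?_
    rw [← h, Function.update_eq_self]
  | cons b w ih =>
    intro S h
    have h1 := ih (Function.update S k w) (by simp)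
    refine run_of_eq (Run.mono (Run.loop_step (by simp [h])
      (run_of_eq (Run.pop k S) (by rw [h]; rfl)) h1) ?_) ?_
    · simp; omega
    · simp

theorem run_move1 {a t : K} (hat : a ≠ t) (S : K → List Bool) (b : Bool) (w : List Bool)
    (ha : S a = b :: w) :
    Run F T (Prog.move1 a t) S 3 (Function.update (Function.update S a w) t (b :: S t)) := by
  cases b
  · refine run_of_eq (Run.ite_false (by simp [ha]) (Run.seq (Run.pop a S) (Run.push t false _))) ?_
    rw [Function.update_of_ne hat.symm, ha]; rfl
  · refine run_of_eq (Run.ite_true (by simp [ha]) (Run.seq (Run.pop a S) (Run.push t true _))) ?_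
    rw [Function.update_of_ne hat.symm, ha]; rfl

theorem run_move {a t : K} (hat : a ≠ t) (S : K → List Bool) :
    Run F T (Prog.move a t) S (4 * (S a).length + 1)
      (Function.update (Function.update S a []) t ((S a).reverse ++ S t)) := by
  suffices ∀ (w : List Bool) (S : K → List Bool), S a = w →
      Run F T (Prog.move a t) S (4 * w.length + 1)
      (Function.update (Function.update S a []) t (w.reverse ++ S t)) from this _ S rfl
  intro w
  induction w with
  | nil =>
    intro S h
    refine run_of_eq (Run.mono (Run.loop_done (by simp [h])) (by simp)) ?_
    rw [← h, Function.update_eq_self]; simp [h]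
  | cons b w ih =>
    intro S h
    have h1 := ih (Function.update (Function.update S a w) t (b :: S t))
      (by rw [Function.update_of_ne hat]; simp)
    refine run_of_eq (Run.mono (Run.loop_step (by simp [h]) (run_move1 hat S b w h) h1) ?_) ?_
    · simp; omega
    · rw [Function.update_self, Function.update_comm hat, Function.update_idem,
        Function.update_comm hat.symm, Function.update_idem]
      simp

theorem run_move2 {t a b : K} (hta : t ≠ a) (htb : t ≠ b) (hab : a ≠ b) (S : K → List Bool) :
    Run F T (Prog.move2 t a b) S (5 * (S t).length + 1)
      (Function.update (Function.update (Function.update S t []) a ((S t).reverse ++ S a)) b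
        ((S t).reverse ++ S b)) := by
  suffices ∀ (w : List Bool) (S : K → List Bool), S t = w →
      Run F T (Prog.move2 t a b) S (5 * w.length + 1)
      (Function.update (Function.update (Function.update S t []) a (w.reverse ++ S a)) b
        (w.reverse ++ S b)) from this _ S rfl
  intro w
  induction w with
  | nil =>
    intro S h
    refine run_of_eq (Run.mono (Run.loop_done (by simp [h])) (by simp)) ?_
    funext k
    by_cases h1 : k = b
    · subst h1; simp
    · by_cases h2 : k = a
      · subst h2; simp [h1]
      · by_cases h3 : k = t
        · subst h3; simp [h1, h2, h]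
        · simp [h1, h2, h3]
  | cons c w ih =>
    intro S h
    have h1 := ih (Function.update (Function.update (Function.update S t w) a (c :: S a)) b (c :: S b))
      (by rw [Function.update_of_ne htb, Function.update_of_ne hta]; simp)
    have h2 : Run F T (Prog.ite t (fun o => o == some true)
        (Prog.seq (Prog.pop t) (Prog.seq (Prog.push a true) (Prog.push b true)))
        (Prog.seq (Prog.pop t) (Prog.seq (Prog.push a false) (Prog.push b false)))) S 4
        (Function.update (Function.update (Function.update S t w) a (c :: S a)) b (c :: S b)) := by
      cases c
      · refine run_of_eq (Run.ite_false (by simp [h]) (Run.seq (Run.pop t S)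
          (Run.seq (Run.push a false _) (Run.push b false _)))) ?_
        rw [Function.update_of_ne hab.symm, Function.update_of_ne htb.symm,
          Function.update_of_ne hta.symm, h]; rfl
      · refine run_of_eq (Run.ite_true (by simp [h]) (Run.seq (Run.pop t S)
          (Run.seq (Run.push a true _) (Run.push b true _)))) ?_
        rw [Function.update_of_ne hab.symm, Function.update_of_ne htb.symm,
          Function.update_of_ne hta.symm, h]; rfl
    refine run_of_eq (Run.mono (Run.loop_step (by simp [h]) h2 h1) ?_) ?_
    · simp; omega
    · clear h1 h2 ih
      funext k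
      by_cases g1 : k = b
      · subst g1; simp
      · by_cases g2 : k = a
        · subst g2; simp [g1, hab]
        · by_cases g3 : k = t
          · subst g3; simp [g1, g2]
          · simp [g1, g2, g3]

theorem run_dup {a t b : K} (hta : t ≠ a) (htb : t ≠ b) (hab : a ≠ b) (S : K → List Bool)
    (ht : S t = []) :
    Run F T (Prog.dup a t b) S (9 * (S a).length + 2) (Function.update S b (S a ++ S b)) := by
  refine run_of_eq (Run.mono (Run.seq (run_move hta.symm S) (run_move2 hta htb hab _)) ?_) ?_
  · simp [ht]; omega
  · funext k
    by_cases h1 : k = b
    · subst h1; simp [ht, htb.symm, hab.symm]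
    · by_cases h2 : k = a
      · subst h2; simp [h1, ht, hta.symm]
      · by_cases h3 : k = t
        · subst h3; simp [h1, h2, ht]
        · simp [h1, h2, h3]

end Crest.Agent.PolyT
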