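import Crest.Agent.Lib.PolyTime.Core
import Crest.Agent.Lib.PolyTime.ProgLib
import Crest.Agent.Lib.PolyTime.CoreLen
import Crest.Agent.Lib.PolyTime.Compile

/-! # PT_BASIC: composition, identity, constants, cons, tail, emptiness test (as one symbol string) -/

set_option autoImplicit false

namespace Crest.Agent.PolyT

open Crest.Complexity

theorem polyTime_comp {f g : List Bool → List Bool} (hg : PolyTime g) (hf : PolyTime f) :
    PolyTime (fun x => g (f x)) := by
  obtain ⟨q, hq⟩ := polyTime_length_le hf
  obtain ⟨q', hq'⟩ := polyTime_length_le hg
  refine polyTime_of_run (K := Unit) (ι := Bool) (fun i => if i then g else f)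
    (fun i => by cases i <;> simp [hf, hg])
    (Prog.seq (Prog.call false ()) (Prog.call true ())) () () _ (fun T => ?_)
  refine ⟨(T false + 2 * Polynomial.X + 2 * q + 8) +
    ((T true).comp q + 2 * q + 2 * q'.comp q + 8), fun x => ?_⟩
  refine run_of_eq (Run.mono (Run.seq (Run.call false () _) (Run.call true () _)) ?_) ?_
  · simp only [single, Function.update_self, Bool.false_eq_true, if_false, if_true,
      Polynomial.eval_add, Polynomial.eval_mul, Polynomial.eval_ofNat, Polynomial.eval_X,
      Polynomial.eval_comp]
    have h1 := hq x
    have h2 := (hq' (f x)).trans (poly_mono q' h1)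
    have h3 := poly_mono (T true) h1
    omega
  · simp [single]

theorem polyTime_id : PolyTime (fun x => x) := by
  refine polyTime_of_run (K := Unit) (ι := Empty) (fun i => nomatch i) (fun i => nomatch i)
    Prog.skip () () _ (fun T => ⟨1, fun x => ?_⟩)
  exact run_of_eq (Run.mono (Run.skip _) (by simp)) rfl

theorem polyTime_cons (b : Bool) : PolyTime (fun x => b :: x) := by
  refine polyTime_of_run (K := Unit) (ι := Empty) (fun i => nomatch i) (fun i => nomatch i)
    (Prog.push () b) () () _ (fun T => ⟨1, fun x => ?_⟩)
  exact run_of_eq (Run.mono (Run.push _ _ _) (by simp)) (by simp [single])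

theorem polyTime_tail : PolyTime (fun x => x.tail) := by
  refine polyTime_of_run (K := Unit) (ι := Empty) (fun i => nomatch i) (fun i => nomatch i)
    (Prog.pop ()) () () _ (fun T => ⟨1, fun x => ?_⟩)
  exact run_of_eq (Run.mono (Run.pop _ _) (by simp)) (by simp [single])

theorem polyTime_nil : PolyTime (fun _ => []) := by
  refine polyTime_of_run (K := Unit) (ι := Empty) (fun i => nomatch i) (fun i => nomatch i)
    (Prog.clear ()) () () _ (fun T => ⟨2 * Polynomial.X + 1, fun x => ?_⟩)
  exact run_of_eq (Run.mono (run_clear _ _) (by simp [single])) (by simp [single])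

theorem polyTime_const (w : List Bool) : PolyTime (fun _ => w) := by
  induction w with
  | nil => exact polyTime_nil
  | cons b w ih => exact polyTime_comp (polyTime_cons b) ih

/-- `[true]` on the empty string and `[false]` on other strings -/
theorem polyTime_isEmpty : PolyTime (fun x => [x.isEmpty]) := by
  refine polyTime_of_run (K := Unit) (ι := Empty) (fun i => nomatch i) (fun i => nomatch i)
    (Prog.ite () Option.isSome (Prog.seq (Prog.clear ()) (Prog.push () false))
      (Prog.push () true)) () () _ (fun T => ⟨2 * Polynomial.X + 3, fun x => ?_⟩)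
  cases x with
  | nil =>
    exact run_of_eq (Run.mono (Run.ite_false (by simp [single]) (Run.push _ _ _)) (by simp))
      (by simp [single])
  | cons b x =>
    exact run_of_eq (Run.mono (Run.ite_true (by simp [single])
      (Run.seq (run_clear _ _) (Run.push _ _ _))) (by simp [single]; omega)) (by simp [single])

end Crest.Agent.PolyT
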