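import Crest.Agent.Lib.PolyTime.Core
import Crest.Agent.Lib.PolyTime.ProgLib
import Crest.Agent.Lib.PolyTime.CoreLen
import Crest.Agent.Lib.PolyTime.Compile

/-! # PT_UNPAIR: the two projections (on all strings, malformed ones included)

fst: stacks a (in), t, o (out).  `loop a (· = some true) (pop a; ite a (= none) skip (move the bit of a to t))`,
then clear a (`loop a isSome (pop a)`), then reverse t onto o.  Careful with the strings
`true :: []` (fstCode = [], the program pops `true`, then a is empty and must push nothing).
snd: `loop a (· = some true) (pop a; pop a)` then `pop a`; careful: fstCode/sndCode on `[true]`. -/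

set_option autoImplicit false

namespace Crest.Agent.PolyT

open Crest.Complexity

namespace Unpair

/-- three stacks -/
def st (u v w : List Bool) : Fin 3 → List Bool := ![u, v, w]

theorem st_zero (u v w : List Bool) : st u v w 0 = u := rfl
theorem st_one (u v w : List Bool) : st u v w 1 = v := rfl
theorem st_two (u v w : List Bool) : st u v w 2 = w := rfl

theorem update_zero (u v w x : List Bool) : Function.update (st u v w) 0 x = st x v w := by
  funext k
  fin_cases k <;> simp [st]

theorem update_one (u v w x : List Bool) : Function.update (st u v w) 1 x = st u x w := by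
  funext k
  fin_cases k <;> simp [st, Function.update]

theorem update_two (u v w x : List Bool) : Function.update (st u v w) 2 x = st u v x := by
  funext k
  fin_cases k <;> simp [st, Function.update]

theorem single_zero (x : List Bool) : single (0 : Fin 3) x = st x [] [] := by
  funext k
  fin_cases k <;> simp [st, single, Function.update]

theorem single_two (x : List Bool) : single (2 : Fin 3) x = st [] [] x := by
  funext k
  fin_cases k <;> simp [st, single, Function.update]

/-- one round of the first projection -/
def body : Prog (Fin 3) Empty :=
  Prog.seq (Prog.pop 0) (Prog.ite 0 Option.isNone Prog.skip (Prog.move1 0 1))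

theorem run_body {F : Empty → List Bool → List Bool} {T : Empty → Polynomial ℕ}
    (b : Bool) (w v : List Bool) :
    Run F T body (st (true :: b :: w) v []) 5 (st w (b :: v) []) := by
  refine Run.seq (t₁ := 1) (t₂ := 4) (S₁ := st (b :: w) v []) ?_ ?_
  · have h := Run.pop (F := F) (T := T) (0 : Fin 3) (st (true :: b :: w) v [])
    rwa [st_zero, update_zero, List.tail_cons] at h
  · refine Run.ite_false (t := 3) (by simp [st_zero]) ?_
    have h := run_move1 (F := F) (T := T) (a := (0 : Fin 3)) (t := 1) (by decide)
      (st (b :: w) v []) b w rfl
    rwa [update_zero, st_one, update_one] at h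

theorem run_body' {F : Empty → List Bool → List Bool} {T : Empty → Polynomial ℕ}
    (v : List Bool) :
    Run F T body (st [true] v []) 3 (st [] v []) := by
  refine Run.seq (t₁ := 1) (t₂ := 2) (S₁ := st [] v []) ?_ ?_
  · have h := Run.pop (F := F) (T := T) (0 : Fin 3) (st [true] v [])
    rwa [st_zero, update_zero, List.tail_cons] at h
  · exact Run.ite_true (t := 1) (by simp [st_zero]) (Run.skip _)

theorem run_loop {F : Empty → List Bool → List Bool} {T : Empty → Polynomial ℕ} :
    ∀ (x v : List Bool), ∃ r : List Bool, r.length ≤ x.length ∧
      Run F T (Prog.loop 0 (fun o => o == some true) body) (st x v []) (6 * x.length + 1)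
        (st r ((fstCode x).reverse ++ v) [])
  | [], v => by
    refine ⟨[], le_rfl, ?_⟩
    simpa [fstCode] using Run.loop_done (F := F) (T := T) (k := (0 : Fin 3))
      (c := fun o => o == some true) (P := body) (S := st [] v []) (by simp [st_zero])
  | [true], v => by
    refine ⟨[], by simp, ?_⟩
    have h1 := run_body' (F := F) (T := T) v
    have h2 := Run.loop_done (F := F) (T := T) (k := (0 : Fin 3))
      (c := fun o => o == some true) (P := body) (S := st [] v []) (by simp [st_zero])
    have h3 := Run.loop_step (F := F) (T := T) (k := (0 : Fin 3))
      (c := fun o => o == some true) (by simp [st_zero]) h1 h2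
    simpa [fstCode] using h3.mono (t' := 6 * ([true] : List Bool).length + 1) (by simp)
  | false :: w, v => by
    refine ⟨false :: w, le_rfl, ?_⟩
    have h := (Run.loop_done (F := F) (T := T) (k := (0 : Fin 3))
      (c := fun o => o == some true) (P := body) (S := st (false :: w) v [])
      (by simp [st_zero])).mono (t' := 6 * (false :: w).length + 1) (by omega)
    simpa [fstCode] using h
  | true :: b :: w, v => by
    obtain ⟨r, hr, h⟩ := run_loop (F := F) (T := T) w (b :: v)
    refine ⟨r, by simp only [List.length_cons]; omega, ?_⟩
    have h3 := Run.loop_step (F := F) (T := T) (k := (0 : Fin 3))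
      (c := fun o => o == some true) (by simp [st_zero]) (run_body (F := F) (T := T) b w v) h
    have h4 := h3.mono (t' := 6 * (true :: b :: w).length + 1)
      (by simp only [List.length_cons]; omega)
    simpa [fstCode] using h4

/-- the program of the first projection -/
def fstProg : Prog (Fin 3) Empty :=
  Prog.seq (Prog.loop 0 (fun o => o == some true) body) (Prog.seq (Prog.clear 0) (Prog.move 1 2))

theorem run_fstProg {F : Empty → List Bool → List Bool} {T : Empty → Polynomial ℕ}
    (x : List Bool) :
    Run F T fstProg (single 0 x) (12 * x.length + 3) (single 2 (fstCode x)) := by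
  obtain ⟨r, hr, h1⟩ := run_loop (F := F) (T := T) x []
  rw [List.append_nil] at h1
  have h2 := run_clear (F := F) (T := T) (0 : Fin 3) (st r (fstCode x).reverse [])
  rw [update_zero, st_zero] at h2
  have h3 := run_move (F := F) (T := T) (a := (1 : Fin 3)) (t := 2) (by decide)
    (st [] (fstCode x).reverse [])
  rw [update_one, st_one, st_two, update_two, List.append_nil, List.reverse_reverse,
    List.length_reverse] at h3
  have hl := length_fstCode_le x
  rw [single_zero, single_two]
  exact (Run.seq h1 (Run.seq h2 h3)).mono (by omega)

/-- the program of the second projection -/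
def sndProg : Prog Unit Empty :=
  Prog.seq (Prog.loop () (fun o => o == some true) (Prog.seq (Prog.pop ()) (Prog.pop ())))
    (Prog.pop ())

theorem run_pop {F : Empty → List Bool → List Bool} {T : Empty → Polynomial ℕ}
    (x : List Bool) : Run F T (Prog.pop ()) (single () x) 1 (single () x.tail) := by
  have h := Run.pop (F := F) (T := T) () (single () x)
  have e : Function.update (single () x) () (single () x ()).tail = single () x.tail := by
    funext k
    simp [single]
  rwa [e] at h

theorem head_single (x : List Bool) : (single () x ()).head? = x.head? := by
  simp [single]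

theorem run_sndLoop {F : Empty → List Bool → List Bool} {T : Empty → Polynomial ℕ} :
    ∀ x : List Bool, ∃ r : List Bool, r.tail = sndCode x ∧
      Run F T (Prog.loop () (fun o => o == some true) (Prog.seq (Prog.pop ()) (Prog.pop ())))
        (single () x) (3 * x.length + 1) (single () r)
  | [] => by
    refine ⟨[], rfl, ?_⟩
    exact Run.loop_done (by simp [head_single])
  | [true] => by
    refine ⟨[], rfl, ?_⟩
    have h := Run.loop_step (F := F) (T := T) (k := ()) (c := fun o => o == some true)
      (by simp [head_single])
      (Run.seq (run_pop [true]) (run_pop [])) (Run.loop_done (by simp [head_single]))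
    exact h.mono (by simp)
  | false :: w => by
    refine ⟨false :: w, rfl, ?_⟩
    exact (Run.loop_done (by simp [head_single])).mono (by omega)
  | true :: b :: w => by
    obtain ⟨r, hr, h⟩ := run_sndLoop (F := F) (T := T) w
    refine ⟨r, by rw [hr]; rfl, ?_⟩
    have h := Run.loop_step (F := F) (T := T) (k := ()) (c := fun o => o == some true)
      (by simp [head_single])
      (Run.seq (run_pop (true :: b :: w)) (run_pop (b :: w))) h
    exact h.mono (by simp only [List.length_cons]; omega)

theorem run_sndProg {F : Empty → List Bool → List Bool} {T : Empty → Polynomial ℕ}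
    (x : List Bool) :
    Run F T sndProg (single () x) (3 * x.length + 2) (single () (sndCode x)) := by
  obtain ⟨r, hr, h⟩ := run_sndLoop (F := F) (T := T) x
  have h' := Run.seq h (run_pop r)
  rw [hr] at h'
  exact h'.mono (by omega)

end Unpair

theorem polyTime_fst : PolyTime fstCode := by
  refine polyTime_of_run (K := Fin 3) (ι := Empty) (fun i => i.elim) (fun i => i.elim)
    Unpair.fstProg 0 2 fstCode (fun T => ⟨Polynomial.C 12 * Polynomial.X + Polynomial.C 3, ?_⟩)
  intro x
  have h := Unpair.run_fstProg (F := fun i => i.elim) (T := T) x
  have e : (Polynomial.C 12 * Polynomial.X + Polynomial.C 3 : Polynomial ℕ).eval x.length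
      = 12 * x.length + 3 := by simp
  rw [e]
  exact h

theorem polyTime_snd : PolyTime sndCode := by
  refine polyTime_of_run (K := Unit) (ι := Empty) (fun i => i.elim) (fun i => i.elim)
    Unpair.sndProg () () sndCode (fun T => ⟨Polynomial.C 3 * Polynomial.X + Polynomial.C 2, ?_⟩)
  intro x
  have h := Unpair.run_sndProg (F := fun i => i.elim) (T := T) x
  have e : (Polynomial.C 3 * Polynomial.X + Polynomial.C 2 : Polynomial ℕ).eval x.length
      = 3 * x.length + 2 := by simp
  rw [e]
  exact h

end Crest.Agent.PolyT
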