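import Crest.Agent.Lib.PolyTime.Core
import Crest.Agent.Lib.PolyTime.ProgLib
import Crest.Agent.Lib.PolyTime.CoreLen
import Crest.Agent.Lib.PolyTime.Compile
import Crest.Agent.Lib.PolyTime.CoreUnpair

/-! # PT_ITE: case distinction, and concatenation

ite: `K = Fin 3` (a, b, t), `ι = Fin 3` (c, f, g): duplicate the input to a and b (see CorePair),
`call c b`, `ite b (· = some true) (call f a) (call g a)`, clear b.  Output on a.
append: duplicate to a, b; `call fst a`, `call snd b`, reverse a to t, loop t: move to b. Output b.
(You may import `CoreUnpair` and use `polyTime_fst`, `polyTime_snd`.) -/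

set_option autoImplicit false

namespace Crest.Agent.PolyT

open Crest.Complexity

namespace IteAux

theorem upd0 (u v w u' : List Bool) :
    Function.update (![u, v, w] : Fin 3 → List Bool) 0 u' = ![u', v, w] := by
  funext k; fin_cases k <;> rfl

theorem upd1 (u v w u' : List Bool) :
    Function.update (![u, v, w] : Fin 3 → List Bool) 1 u' = ![u, u', w] := by
  funext k; fin_cases k <;> rfl

theorem upd2 (u v w u' : List Bool) :
    Function.update (![u, v, w] : Fin 3 → List Bool) 2 u' = ![u, v, u'] := by
  funext k; fin_cases k <;> rfl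

theorem single0 (u : List Bool) : single (0 : Fin 3) u = ![u, [], []] := by
  funext k; fin_cases k <;> rfl

theorem single1 (u : List Bool) : single (1 : Fin 3) u = ![[], u, []] := by
  funext k; fin_cases k <;> rfl

end IteAux

open IteAux

theorem polyTime_ite {c f g : List Bool → List Bool} (hc : PolyTime c) (hf : PolyTime f)
    (hg : PolyTime g) : PolyTime (fun x => if (c x).head? = some true then f x else g x) := by
  obtain ⟨qc, hqc⟩ := polyTime_length_le hc
  obtain ⟨qf, hqf⟩ := polyTime_length_le hf
  obtain ⟨qg, hqg⟩ := polyTime_length_le hg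
  let P : Prog (Fin 3) (Fin 3) := Prog.seq (Prog.dup 0 2 1) (Prog.seq (Prog.call 0 1)
    (Prog.seq (Prog.ite 1 (fun o => o == some true) (Prog.call 1 0) (Prog.call 2 0))
      (Prog.clear 1)))
  refine polyTime_of_run (K := Fin 3) (ι := Fin 3) ![c, f, g]
    (by intro i; fin_cases i <;> assumption) P 0 0 _ (fun T =>
    ⟨(9 * Polynomial.X + 2) + ((T 0 + 2 * Polynomial.X + 2 * qc + 8) +
      (((T 1 + 2 * Polynomial.X + 2 * qf + 8) + (T 2 + 2 * Polynomial.X + 2 * qg + 8) + 1) +
        (2 * qc + 1))), fun x => ?_⟩)
  have h1 : Run ![c, f, g] T (Prog.dup 0 2 1) (single (0 : Fin 3) x) (9 * x.length + 2)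
      ![x, x, []] := by
    have h := run_dup (F := ![c, f, g]) (T := T) (a := (0 : Fin 3)) (t := 2) (b := 1)
      (by decide) (by decide) (by decide) ![x, [], []] rfl
    rw [upd1] at h
    rw [single0]
    simpa using h
  have h2 : Run ![c, f, g] T (Prog.call 0 1) ![x, x, []]
      ((T 0).eval x.length + 2 * x.length + 2 * (c x).length + 8) ![x, c x, []] := by
    have h := Run.call (F := ![c, f, g]) (T := T) (0 : Fin 3) (1 : Fin 3) ![x, x, []]
    rw [upd1] at h
    exact h
  have h3 : Run ![c, f, g] T (Prog.ite 1 (fun o => o == some true) (Prog.call 1 0)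
      (Prog.call 2 0)) ![x, c x, []]
      (((T 1).eval x.length + 2 * x.length + 2 * (f x).length + 8) +
        ((T 2).eval x.length + 2 * x.length + 2 * (g x).length + 8) + 1)
      ![if (c x).head? = some true then f x else g x, c x, []] := by
    by_cases hx : (c x).head? = some true
    · rw [if_pos hx]
      have h := Run.call (F := ![c, f, g]) (T := T) (1 : Fin 3) (0 : Fin 3) ![x, c x, []]
      rw [upd0] at h
      refine Run.mono (Run.ite_true ?_ h) ?_
      · change ((c x).head? == some true) = true
        rw [hx]; rfl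
      · change (T 1).eval x.length + 2 * x.length + 2 * (f x).length + 8 + 1 ≤ _
        omega
    · rw [if_neg hx]
      have h := Run.call (F := ![c, f, g]) (T := T) (2 : Fin 3) (0 : Fin 3) ![x, c x, []]
      rw [upd0] at h
      refine Run.mono (Run.ite_false ?_ h) ?_
      · change ((c x).head? == some true) = false
        rw [beq_eq_false_iff_ne]
        exact hx
      · change (T 2).eval x.length + 2 * x.length + 2 * (g x).length + 8 + 1 ≤ _
        omega
  have h4 : Run ![c, f, g] T (Prog.clear 1)
      ![if (c x).head? = some true then f x else g x, c x, []] (2 * (c x).length + 1)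
      (single (0 : Fin 3) (if (c x).head? = some true then f x else g x)) := by
    have h := run_clear (F := ![c, f, g]) (T := T) (1 : Fin 3)
      ![if (c x).head? = some true then f x else g x, c x, []]
    rw [upd1] at h
    rw [single0]
    exact h
  refine Run.mono (Run.seq h1 (Run.seq h2 (Run.seq h3 h4))) ?_
  have e1 := hqc x
  have e2 := hqf x
  have e3 := hqg x
  simp only [Polynomial.eval_add, Polynomial.eval_mul, Polynomial.eval_X, Polynomial.eval_ofNat,
    Polynomial.eval_one]
  omega

theorem polyTime_append : PolyTime (fun x => fstCode x ++ sndCode x) := by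
  let P : Prog (Fin 3) (Fin 3) := Prog.seq (Prog.dup 0 2 1) (Prog.seq (Prog.call 0 0)
    (Prog.seq (Prog.call 1 1) (Prog.seq (Prog.move 0 2) (Prog.move 2 1))))
  refine polyTime_of_run (K := Fin 3) (ι := Fin 3) ![fstCode, sndCode, fstCode]
    (by intro i; fin_cases i <;> first | exact polyTime_fst | exact polyTime_snd)
    P 0 1 _ (fun T =>
    ⟨(9 * Polynomial.X + 2) + ((T 0 + 4 * Polynomial.X + 8) + ((T 1 + 4 * Polynomial.X + 8) +
      ((4 * Polynomial.X + 1) + (4 * Polynomial.X + 1)))), fun x => ?_⟩)
  have h1 : Run ![fstCode, sndCode, fstCode] T (Prog.dup 0 2 1) (single (0 : Fin 3) x)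
      (9 * x.length + 2) ![x, x, []] := by
    have h := run_dup (F := ![fstCode, sndCode, fstCode]) (T := T) (a := (0 : Fin 3)) (t := 2)
      (b := 1) (by decide) (by decide) (by decide) ![x, [], []] rfl
    rw [upd1] at h
    rw [single0]
    simpa using h
  have h2 : Run ![fstCode, sndCode, fstCode] T (Prog.call 0 0) ![x, x, []]
      ((T 0).eval x.length + 2 * x.length + 2 * (fstCode x).length + 8)
      ![fstCode x, x, []] := by
    have h := Run.call (F := ![fstCode, sndCode, fstCode]) (T := T) (0 : Fin 3) (0 : Fin 3)
      ![x, x, []]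
    rw [upd0] at h
    exact h
  have h3 : Run ![fstCode, sndCode, fstCode] T (Prog.call 1 1) ![fstCode x, x, []]
      ((T 1).eval x.length + 2 * x.length + 2 * (sndCode x).length + 8)
      ![fstCode x, sndCode x, []] := by
    have h := Run.call (F := ![fstCode, sndCode, fstCode]) (T := T) (1 : Fin 3) (1 : Fin 3)
      ![fstCode x, x, []]
    rw [upd1] at h
    exact h
  have h4 : Run ![fstCode, sndCode, fstCode] T (Prog.move 0 2) ![fstCode x, sndCode x, []]
      (4 * (fstCode x).length + 1) ![[], sndCode x, (fstCode x).reverse] := by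
    have h := run_move (F := ![fstCode, sndCode, fstCode]) (T := T) (a := (0 : Fin 3)) (t := 2)
      (by decide) ![fstCode x, sndCode x, []]
    rw [upd0, upd2] at h
    simpa using h
  have h5 : Run ![fstCode, sndCode, fstCode] T (Prog.move 2 1)
      ![[], sndCode x, (fstCode x).reverse]
      (4 * (fstCode x).length + 1) (single (1 : Fin 3) (fstCode x ++ sndCode x)) := by
    have h := run_move (F := ![fstCode, sndCode, fstCode]) (T := T) (a := (2 : Fin 3)) (t := 1)
      (by decide) ![[], sndCode x, (fstCode x).reverse]
    rw [upd2, upd1] at h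
    rw [single1]
    simpa using h
  refine Run.mono (Run.seq h1 (Run.seq h2 (Run.seq h3 (Run.seq h4 h5)))) ?_
  have e1 := length_fstCode_le x
  have e2 := length_sndCode_le x
  simp only [Polynomial.eval_add, Polynomial.eval_mul, Polynomial.eval_X, Polynomial.eval_ofNat,
    Polynomial.eval_one]
  omega

end Crest.Agent.PolyT
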