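import Crest.Agent.Lib.PolyTime.Core
import Crest.Agent.Lib.PolyTime.ProgLib
import Crest.Agent.Lib.PolyTime.CoreLen
import Crest.Agent.Lib.PolyTime.Compile

/-! # PT_PAIR: pairing

Program with `K = Fin 3` (a, b, t), `ι = Bool`, input on a, output on b:
1. `loop a isSome (ite a (· = some true) (seq (pop a) (push t true)) (seq (pop a) (push t false)))`
   (t = reverse x);
2. loop t: pop t, push the bit on a and on b (a = b = x);
3. `call false a` (a = f x), `call true b` (b = g x);
4. loop a: move to t (t = reverse (f x)); `push b false`; loop t: pop the bit c, `push b c`,
   `push b true`.  Result b = delim (f x) ++ g x, everything else empty. -/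

set_option autoImplicit false

namespace Crest.Agent.PolyT

open Crest.Complexity

section

variable {K ι : Type} [DecidableEq K] {F : ι → List Bool → List Bool} {T : ι → Polynomial ℕ}

/-- encode the (reversed) stack `t` in self-delimiting form on top of `b` -/
def Prog.enc (t b : K) : Prog K ι :=
  Prog.loop t Option.isSome (Prog.ite t (fun o => o == some true)
    (Prog.seq (Prog.pop t) (Prog.seq (Prog.push b true) (Prog.push b true)))
    (Prog.seq (Prog.pop t) (Prog.seq (Prog.push b false) (Prog.push b true))))

theorem run_enc {t b : K} (htb : t ≠ b) : ∀ (w : List Bool) (S : K → List Bool), S t = w →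
    Run F T (Prog.enc t b) S (5 * w.length + 1)
      (Function.update (Function.update S t []) b ((w.reverse.flatMap fun c => [true, c]) ++ S b))
  | [], S, h => by
    have h1 : Function.update (Function.update S t []) b
        ((([] : List Bool).reverse.flatMap fun c => [true, c]) ++ S b) = S := by
      funext k
      by_cases hk : k = b
      · subst hk; simp
      · by_cases hk' : k = t
        · subst hk'; simp [hk, h]
        · simp [hk, hk']
    rw [h1]
    exact Run.loop_done (by rw [h]; rfl)
  | c :: w, S, h => by
    have hbody : Run F T (Prog.ite t (fun o => o == some true)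
        (Prog.seq (Prog.pop t) (Prog.seq (Prog.push b true) (Prog.push b true)))
        (Prog.seq (Prog.pop t) (Prog.seq (Prog.push b false) (Prog.push b true)))) S 4
        (Function.update (Function.update S t w) b (true :: c :: S b)) := by
      have h2 : ∀ c' : Bool, Run F T (Prog.seq (Prog.pop t) (Prog.seq (Prog.push b c')
          (Prog.push b true))) S 3
          (Function.update (Function.update S t w) b (true :: c' :: S b)) := by
        intro c'
        have r1 := Run.pop (F := F) (T := T) t S
        have r2 := Run.push (F := F) (T := T) b c' (Function.update S t (S t).tail)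
        have r3 := Run.push (F := F) (T := T) b true (Function.update (Function.update S t (S t).tail) b
          (c' :: Function.update S t (S t).tail b))
        have r := Run.seq r1 (Run.seq r2 r3)
        have e : Function.update (Function.update (Function.update S t (S t).tail) b
          (c' :: Function.update S t (S t).tail b)) b (true :: Function.update (Function.update S t
            (S t).tail) b (c' :: Function.update S t (S t).tail b) b) =
            Function.update (Function.update S t w) b (true :: c' :: S b) := by
          rw [h]
          simp [Function.update_of_ne (Ne.symm htb)]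
        rw [e] at r
        exact r
      cases c with
      | true => exact Run.ite_true (by rw [h]; rfl) (h2 true)
      | false => exact Run.ite_false (by rw [h]; rfl) (h2 false)
    have ih := run_enc htb w (Function.update (Function.update S t w) b (true :: c :: S b))
      (by rw [Function.update_of_ne htb, Function.update_self])
    have h3 := Run.loop_step (F := F) (T := T) (k := t) (c := Option.isSome) (by rw [h]; rfl) hbody ih
    have e : Function.update (Function.update (Function.update (Function.update S t w) b
        (true :: c :: S b)) t []) b ((w.reverse.flatMap fun c => [true, c]) ++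
          (Function.update (Function.update S t w) b (true :: c :: S b)) b) =
        Function.update (Function.update S t []) b
          (((c :: w).reverse.flatMap fun c => [true, c]) ++ S b) := by
      funext k
      by_cases hk : k = b
      · subst hk; simp
      · by_cases hk' : k = t
        · subst hk'; simp [hk]
        · simp [hk, hk']
    rw [e] at h3
    refine Run.mono h3 ?_
    simp only [List.length_cons]
    omega

end

theorem polyTime_pair {f g : List Bool → List Bool} (hf : PolyTime f) (hg : PolyTime g) :
    PolyTime (fun x => pairCode (f x) (g x)) := by
  obtain ⟨qf, hqf⟩ := polyTime_length_le hf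
  obtain ⟨qg, hqg⟩ := polyTime_length_le hg
  refine polyTime_of_run (K := Fin 3) (ι := Bool) (fun i => if i then g else f)
    (fun i => by cases i <;> simpa) (Prog.seq (Prog.dup 0 2 1) (Prog.seq (Prog.call false 0)
      (Prog.seq (Prog.call true 1) (Prog.seq (Prog.move 0 2) (Prog.seq (Prog.push 1 false)
        (Prog.enc 2 1)))))) 0 1 _ ?_
  intro T
  refine ⟨T false + T true + Polynomial.C 13 * Polynomial.X + Polynomial.C 11 * qf +
    Polynomial.C 2 * qg + Polynomial.C 30, fun x => ?_⟩
  set F : Bool → List Bool → List Bool := fun i => if i then g else f with hF
  have hFf : F false = f := rfl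
  have hFt : F true = g := rfl
  have s0 : (single 0 x : Fin 3 → List Bool) = ![x, [], []] := by
    funext k; fin_cases k <;> simp [single]
  have r1 := run_dup (F := F) (T := T) (a := (0 : Fin 3)) (t := 2) (b := 1) (by decide) (by decide)
    (by decide) (single 0 x) (by simp [single])
  have e1 : Function.update (single (0 : Fin 3) x) 1 ((single (0 : Fin 3) x) 0 ++
      (single (0 : Fin 3) x) 1) = ![x, x, []] := by
    funext k; fin_cases k <;> simp [single]
  have l1 : ((single (0 : Fin 3) x) 0).length = x.length := by simp [single]
  rw [e1, l1] at r1
  have r2 := Run.call (F := F) (T := T) false (0 : Fin 3) ![x, x, []]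
  have e2 : Function.update (![x, x, []] : Fin 3 → List Bool) 0 (F false ((![x, x, []] : Fin 3 → List Bool) 0)) =
      ![f x, x, []] := by
    funext k; fin_cases k <;> simp [hFf]
  rw [e2] at r2
  have r3 := Run.call (F := F) (T := T) true (1 : Fin 3) ![f x, x, []]
  have e3 : Function.update (![f x, x, []] : Fin 3 → List Bool) 1
      (F true ((![f x, x, []] : Fin 3 → List Bool) 1)) = ![f x, g x, []] := by
    funext k; fin_cases k <;> simp [hFt]
  rw [e3] at r3
  have r4 := run_move (F := F) (T := T) (a := (0 : Fin 3)) (t := 2) (by decide) ![f x, g x, []]
  have e4 : Function.update (Function.update (![f x, g x, []] : Fin 3 → List Bool) 0 []) 2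
      (((![f x, g x, []] : Fin 3 → List Bool) 0).reverse ++ (![f x, g x, []] : Fin 3 → List Bool) 2) =
      ![[], g x, (f x).reverse] := by
    funext k; fin_cases k <;> simp
  rw [e4] at r4
  have r5 := Run.push (F := F) (T := T) (1 : Fin 3) false ![[], g x, (f x).reverse]
  have e5 : Function.update (![[], g x, (f x).reverse] : Fin 3 → List Bool) 1
      (false :: (![[], g x, (f x).reverse] : Fin 3 → List Bool) 1) =
      ![[], false :: g x, (f x).reverse] := by
    funext k; fin_cases k <;> simp
  rw [e5] at r5
  have r6 := run_enc (F := F) (T := T) (t := (2 : Fin 3)) (b := 1) (by decide) (f x).reverse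
    ![[], false :: g x, (f x).reverse] rfl
  have e6 : Function.update (Function.update (![[], false :: g x, (f x).reverse] : Fin 3 → List Bool) 2
      []) 1 (((f x).reverse.reverse.flatMap fun c => [true, c]) ++
        (![[], false :: g x, (f x).reverse] : Fin 3 → List Bool) 1) =
      single 1 (pairCode (f x) (g x)) := by
    funext k; fin_cases k <;> simp [single, pairCode, delim]
  rw [e6] at r6
  have r := Run.seq r1 (Run.seq r2 (Run.seq r3 (Run.seq r4 (Run.seq r5 r6))))
  refine Run.mono r ?_
  have hx1 := hqf x
  have hx2 := hqg x
  simp only [hFf, hFt, Matrix.cons_val_zero, Matrix.cons_val_one, List.length_reverse,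
    Polynomial.eval_add, Polynomial.eval_mul, Polynomial.eval_C, Polynomial.eval_X]
  omega

end Crest.Agent.PolyT
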