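import Crest.Agent.Lib.PolyTime.Core
import Crest.Agent.Lib.PolyTime.ProgLib
import Crest.Agent.Lib.PolyTime.CoreLen
import Crest.Agent.Lib.PolyTime.CoreUnpair
import Crest.Agent.Lib.PolyTime.Compile

/-! # PT_TAKE: take, and reverse

take: duplicate the input to a, b; `call fst a` (u), `call snd b` (v);
`loop a isSome (pop a; ite b none: skip, else move the top of b to t)`; clear b; reverse t onto o. -/

set_option autoImplicit false

namespace Crest.Agent.PolyT

open Crest.Complexity

namespace CoreTakeaux

/-- a store with three stacks -/
def st (a b c : List Bool) : Fin 3 → List Bool := ![a, b, c]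

theorem st_zero (a b c : List Bool) : st a b c 0 = a := rfl
theorem st_one (a b c : List Bool) : st a b c 1 = b := rfl
theorem st_two (a b c : List Bool) : st a b c 2 = c := rfl

theorem upd_zero (a b c d : List Bool) : Function.update (st a b c) 0 d = st d b c := by
  funext k
  fin_cases k <;> simp [st, Function.update]

theorem upd_one (a b c d : List Bool) : Function.update (st a b c) 1 d = st a d c := by
  funext k
  fin_cases k <;> simp [st, Function.update]

theorem upd_two (a b c d : List Bool) : Function.update (st a b c) 2 d = st a b d := by
  funext k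
  fin_cases k <;> simp [st, Function.update]

theorem single_zero (a : List Bool) : single (0 : Fin 3) a = st a [] [] := by
  funext k
  fin_cases k <;> simp [st, single, Function.update]

theorem single_one (a : List Bool) : single (1 : Fin 3) a = st [] a [] := by
  funext k
  fin_cases k <;> simp [st, single, Function.update]

/-- the program -/
def takeLoop (ι : Type) : Prog (Fin 3) ι :=
  Prog.loop 0 Option.isSome (Prog.seq (Prog.pop 0)
    (Prog.ite 1 Option.isSome (Prog.move1 1 2) Prog.skip))

theorem run_takeLoop {ι : Type} (F : ι → List Bool → List Bool) (T : ι → Polynomial ℕ)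
    (u : List Bool) : ∀ v w : List Bool, Run F T (takeLoop ι) (st u v w) (6 * u.length + 1)
      (st [] (v.drop u.length) ((v.take u.length).reverse ++ w)) := by
  induction u with
  | nil =>
    intro v w
    exact Run.loop_done rfl
  | cons c u ih =>
    intro v w
    have hpop := Run.pop (F := F) (T := T) (0 : Fin 3) (st (c :: u) v w)
    rw [upd_zero, st_zero, List.tail_cons] at hpop
    cases v with
    | nil =>
      have h1 : Run F T (Prog.ite (1 : Fin 3) Option.isSome (Prog.move1 1 2) Prog.skip)
          (st u [] w) 2 (st u [] w) := Run.ite_false rfl (Run.skip _)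
      have h2 := Run.loop_step (F := F) (T := T) (k := (0 : Fin 3)) (c := Option.isSome)
        (S := st (c :: u) [] w) rfl (Run.seq hpop h1) (ih [] w)
      refine Run.mono ?_ (show 1 + 2 + (6 * u.length + 1) + 1 ≤ 6 * (c :: u).length + 1 by
        simp only [List.length_cons]; omega)
      simpa [takeLoop] using h2
    | cons d v =>
      have hm := run_move1 (F := F) (T := T) (a := (1 : Fin 3)) (t := (2 : Fin 3)) (by decide)
        (st u (d :: v) w) d v rfl
      rw [upd_one, upd_two, st_two] at hm
      have h1 : Run F T (Prog.ite (1 : Fin 3) Option.isSome (Prog.move1 1 2) Prog.skip)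
          (st u (d :: v) w) 4 (st u v (d :: w)) := Run.ite_true rfl hm
      have h2 := Run.loop_step (F := F) (T := T) (k := (0 : Fin 3)) (c := Option.isSome)
        (S := st (c :: u) (d :: v) w) rfl (Run.seq hpop h1) (ih v (d :: w))
      refine Run.mono ?_ (show 1 + 4 + (6 * u.length + 1) + 1 ≤ 6 * (c :: u).length + 1 by
        simp only [List.length_cons]; omega)
      simpa [takeLoop, List.append_assoc] using h2

end CoreTakeaux

open CoreTakeaux in
theorem polyTime_take : PolyTime (fun x => (sndCode x).take (fstCode x).length) := by
  refine polyTime_of_run (K := Fin 3) (ι := Bool) (fun b => if b then sndCode else fstCode) ?_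
    (Prog.seq (Prog.dup 0 2 1) (Prog.seq (Prog.call false 0) (Prog.seq (Prog.call true 1)
      (Prog.seq (takeLoop Bool) (Prog.seq (Prog.clear 1) (Prog.move 2 0)))))) 0 0 _ ?_
  · intro b
    cases b
    · exact polyTime_fst
    · exact polyTime_snd
  · intro T
    refine ⟨(T false) + (T true) + 30 * Polynomial.X + 30, fun x => ?_⟩
    set F : Bool → List Bool → List Bool := fun b => if b then sndCode else fstCode with hF
    set n := x.length with hn
    have hu : (fstCode x).length ≤ n := length_fstCode_le x
    have hv : (sndCode x).length ≤ n := length_sndCode_le x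
    set u := fstCode x with hu'
    set v := sndCode x with hv'
    have r1 := run_dup (F := F) (T := T) (a := (0 : Fin 3)) (t := (2 : Fin 3))
      (b := (1 : Fin 3)) (by decide) (by decide) (by decide) (st x [] []) rfl
    rw [upd_one, st_zero, st_one, List.append_nil, ← hn] at r1
    have r2 := Run.call (F := F) (T := T) false (0 : Fin 3) (st x x [])
    rw [upd_zero, st_zero, show F false x = u from rfl, ← hn] at r2
    have r3 := Run.call (F := F) (T := T) true (1 : Fin 3) (st u x [])
    rw [upd_one, st_one, show F true x = v from rfl, ← hn] at r3
    have r4 := run_takeLoop F T u v []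
    rw [List.append_nil] at r4
    have r5 := run_clear (F := F) (T := T) (1 : Fin 3)
      (st [] (v.drop u.length) (v.take u.length).reverse)
    rw [upd_one, st_one] at r5
    have r6 := run_move (F := F) (T := T) (a := (2 : Fin 3)) (t := (0 : Fin 3)) (by decide)
      (st [] [] (v.take u.length).reverse)
    rw [upd_two, upd_zero, st_two, st_zero, List.reverse_reverse, List.append_nil] at r6
    rw [single_zero, single_zero]
    refine Run.mono (Run.seq r1 (Run.seq r2 (Run.seq r3 (Run.seq r4 (Run.seq r5 r6))))) ?_
    simp only [Polynomial.eval_add, Polynomial.eval_mul, Polynomial.eval_X,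
      Polynomial.eval_ofNat, List.length_drop, List.length_reverse, List.length_take]
    omega

theorem polyTime_reverse : PolyTime (fun x => x.reverse) := by
  refine polyTime_of_run (K := Fin 3) (ι := Empty) (fun e => e.elim) (fun e => e.elim)
    (Prog.move 0 1) 0 1 _ ?_
  intro T
  refine ⟨4 * Polynomial.X + 1, fun x => ?_⟩
  have r := run_move (F := fun e : Empty => e.elim) (T := T) (a := (0 : Fin 3))
    (t := (1 : Fin 3)) (by decide) (CoreTakeaux.st x [] [])
  rw [CoreTakeaux.upd_zero, CoreTakeaux.upd_one, CoreTakeaux.st_zero, CoreTakeaux.st_one,
    List.append_nil] at r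
  rw [CoreTakeaux.single_zero, CoreTakeaux.single_one]
  simpa using r

end Crest.Agent.PolyT
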