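import Crest.Agent.Lib.PolyTime.Core
import Crest.Agent.Lib.PolyTime.ProgLib
import Crest.Agent.Lib.PolyTime.CoreLen
import Crest.Agent.Lib.PolyTime.CoreUnpair
import Crest.Agent.Lib.PolyTime.CoreTake
import Crest.Agent.Lib.PolyTime.CorePair
import Crest.Agent.Lib.PolyTime.CoreBasic
import Crest.Agent.Lib.PolyTime.Compile

/-! # PT_ITER: truncated iteration

`x = pairCode u v`: iterate `|u|` times, starting from `v`, the map `y ↦ (h y).take |u|`.
Let `h' z := pairCode (fstCode z) ((h (sndCode z)).take (fstCode z).length)`; it is polynomial time by
`polyTime_pair`, `polyTime_comp`, `polyTime_take`, and iterating `h'` from `pairCode u v` gives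
`pairCode u (iterate)`.  So: stacks a, b, t; `ι`: fst, snd, pair-normalisation
`n x := pairCode (fstCode x) (sndCode x)`, `h'`.  Program: duplicate the input to a, b;
`call fst b` (b = u, the counter); `call n a`; `loop b isSome (seq (pop b) (call h' a))`; `call snd a`.
The length of a is at every moment `≤ 2|u| + 1 + max |u| |v|`, hence the cost is
`≤ |u| * poly(|x|) + ...`: polynomial on every input `x`. -/

set_option autoImplicit false

namespace Crest.Agent.PolyT

open Crest.Complexity

/-- one step of the iteration, on codes of pairs -/
private def iterStep (h : List Bool → List Bool) (z : List Bool) : List Bool :=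
  pairCode (fstCode z) ((h (sndCode z)).take (fstCode z).length)

private theorem polyTime_iterStep {h : List Bool → List Bool} (hh : PolyTime h) :
    PolyTime (iterStep h) := by
  have h1 : PolyTime (fun z => h (sndCode z)) := polyTime_comp hh polyTime_snd
  have h2 : PolyTime (fun z => pairCode (fstCode z) (h (sndCode z))) := polyTime_pair polyTime_fst h1
  have h3 : PolyTime (fun z =>
      (sndCode (pairCode (fstCode z) (h (sndCode z)))).take
        (fstCode (pairCode (fstCode z) (h (sndCode z)))).length) := polyTime_comp polyTime_take h2
  have h4 : PolyTime (fun z => (h (sndCode z)).take (fstCode z).length) := by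
    simpa using h3
  exact polyTime_pair polyTime_fst h4

/-- the four subroutines -/
private def iterF (h : List Bool → List Bool) : Fin 4 → List Bool → List Bool
  | 0 => fstCode
  | 1 => sndCode
  | 2 => fun x => pairCode (fstCode x) (sndCode x)
  | 3 => iterStep h

private theorem run_iterLoop {h : List Bool → List Bool} (T : Fin 4 → Polynomial ℕ)
    (u : List Bool) (M : ℕ) (hM : u.length ≤ M) :
    ∀ (w : List Bool) (y : List Bool) (S : Fin 3 → List Bool), y.length ≤ M →
      S 0 = pairCode u y → S 1 = w →
      Run (iterF h) T (Prog.loop (1 : Fin 3) Option.isSome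
          (Prog.seq (Prog.pop (1 : Fin 3)) (Prog.call (3 : Fin 4) (0 : Fin 3)))) S
        (w.length * ((T 3).eval (2 * u.length + 1 + M) + 4 * (2 * u.length + 1 + M) + 10) + 1)
        (Function.update (Function.update S 0
          (pairCode u ((fun y => (h y).take u.length)^[w.length] y))) 1 []) := by
  intro w
  induction w with
  | nil =>
    intro y S hy h0 h1
    have e : Function.update (Function.update S 0
          (pairCode u ((fun y => (h y).take u.length)^[([] : List Bool).length] y))) 1 [] = S := by
      funext k
      fin_cases k
      · simp [Function.update, h0]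
      · simp [Function.update, h1]
      · simp [Function.update]
    rw [e]
    refine Run.mono (Run.loop_done ?_) (by omega)
    simp [h1]
  | cons b w ih =>
    intro y S hy h0 h1
    have hc : Option.isSome (S 1).head? = true := by simp [h1]
    -- body
    have hpop := Run.pop (F := iterF h) (T := T) (1 : Fin 3) S
    have hcall := Run.call (F := iterF h) (T := T) (3 : Fin 4) (0 : Fin 3)
      (Function.update S 1 (S 1).tail)
    have hS1 : (Function.update S 1 (S 1).tail) 0 = pairCode u y := by
      simp [Function.update, h0]
    have hlen : (pairCode u y).length = 2 * u.length + 1 + y.length := by simp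
    have hF3 : iterF h 3 (pairCode u y) = pairCode u ((h y).take u.length) := by
      simp [iterF, iterStep]
    rw [hS1, hF3] at hcall
    have hbody := Run.seq hpop hcall
    set S₁ := Function.update (Function.update S 1 (S 1).tail) 0
      (pairCode u ((h y).take u.length)) with hS₁
    have hy' : ((h y).take u.length).length ≤ M :=
      le_trans (by simp) hM
    have hrec := ih ((h y).take u.length) S₁ hy' (by simp [hS₁])
      (by simp [hS₁, Function.update, h1])
    have hstep := Run.loop_step (k := (1 : Fin 3)) (c := Option.isSome) hc hbody hrec
    have e : Function.update (Function.update S 0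
          (pairCode u ((fun y => (h y).take u.length)^[(b :: w).length] y))) 1 [] =
        Function.update (Function.update S₁ 0
          (pairCode u ((fun y => (h y).take u.length)^[w.length]
            ((h y).take u.length)))) 1 [] := by
      funext k
      fin_cases k
      · simp [Function.update, Function.iterate_succ_apply]
      · simp [Function.update]
      · simp [Function.update, hS₁]
    rw [e]
    refine Run.mono hstep ?_
    have h2 : (pairCode u ((h y).take u.length)).length ≤ 2 * u.length + 1 + M := by
      rw [length_pairCode]; omega
    have h3 : (T 3).eval (pairCode u y).length ≤ (T 3).eval (2 * u.length + 1 + M) :=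
      poly_mono _ (by rw [hlen]; omega)
    have h4 : (pairCode u y).length ≤ 2 * u.length + 1 + M := by rw [hlen]; omega
    simp only [List.length_cons]
    rw [add_mul]
    omega

theorem polyTime_iterate {h : List Bool → List Bool} (hh : PolyTime h) :
    PolyTime (fun x =>
      (fun y => (h y).take (fstCode x).length)^[(fstCode x).length] (sndCode x)) := by
  refine polyTime_of_run (K := Fin 3) (ι := Fin 4) (iterF h) ?_
    (Prog.seq (Prog.dup (0 : Fin 3) (2 : Fin 3) (1 : Fin 3))
      (Prog.seq (Prog.call (0 : Fin 4) (1 : Fin 3))
        (Prog.seq (Prog.call (2 : Fin 4) (0 : Fin 3))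
          (Prog.seq (Prog.loop (1 : Fin 3) Option.isSome
            (Prog.seq (Prog.pop (1 : Fin 3)) (Prog.call (3 : Fin 4) (0 : Fin 3))))
            (Prog.call (1 : Fin 4) (0 : Fin 3))))))
    (0 : Fin 3) (0 : Fin 3) _ ?_
  · intro i
    fin_cases i
    · exact polyTime_fst
    · exact polyTime_snd
    · exact polyTime_pair polyTime_fst polyTime_snd
    · exact polyTime_iterStep hh
  · intro T
    let q : Polynomial ℕ := 3 * Polynomial.X + 1
    refine ⟨(9 * Polynomial.X + 2) + ((T 0 + 4 * Polynomial.X + 8) +
      ((T 2 + 8 * Polynomial.X + 10) +
        ((Polynomial.X * ((T 3).comp q + 4 * q + 10) + 1) + ((T 1).comp q + 4 * q + 8)))), ?_⟩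
    intro x
    set n := x.length with hn
    have hq : q.eval n = 3 * n + 1 := by simp [q]
    have hu : (fstCode x).length ≤ n := length_fstCode_le x
    have hv : (sndCode x).length ≤ n := length_sndCode_le x
    set u := fstCode x with hu'
    set v := sndCode x with hv'
    -- 1. duplicate
    have r1 := run_dup (F := iterF h) (T := T) (a := (0 : Fin 3)) (t := (2 : Fin 3))
      (b := (1 : Fin 3)) (by decide) (by decide) (by decide) (single 0 x)
      (by simp [single, Function.update])
    have e1 : Function.update (single (0 : Fin 3) x) 1 (single (0 : Fin 3) x 0 ++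
        single (0 : Fin 3) x 1) = Function.update (single (0 : Fin 3) x) 1 x := by
      congr 1
      simp [single]
    rw [e1] at r1
    have l1 : (single (0 : Fin 3) x 0).length = n := by simp [single, hn]
    rw [l1] at r1
    -- 2. fst
    have r2 := Run.call (F := iterF h) (T := T) (0 : Fin 4) (1 : Fin 3)
      (Function.update (single (0 : Fin 3) x) 1 x)
    have e2 : iterF h 0 (Function.update (single (0 : Fin 3) x) 1 x 1) = u := by
      simp [iterF, hu']
    have l2 : (Function.update (single (0 : Fin 3) x) 1 x 1).length = n := by simp [hn]
    rw [e2, l2] at r2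
    have e2' : Function.update (Function.update (single (0 : Fin 3) x) 1 x) 1 u =
        Function.update (single (0 : Fin 3) x) 1 u := by simp
    rw [e2'] at r2
    -- 3. normalise
    have r3 := Run.call (F := iterF h) (T := T) (2 : Fin 4) (0 : Fin 3)
      (Function.update (single (0 : Fin 3) x) 1 u)
    have e3 : iterF h 2 (Function.update (single (0 : Fin 3) x) 1 u 0) = pairCode u v := by
      simp [iterF, hu', hv', single, Function.update]
    have l3 : (Function.update (single (0 : Fin 3) x) 1 u 0).length = n := by
      simp [single, Function.update, hn]
    rw [e3, l3] at r3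
    -- 4. loop
    have r4 := run_iterLoop (h := h) T u n hu u v
      (Function.update (Function.update (single (0 : Fin 3) x) 1 u) 0 (pairCode u v)) hv
      (by simp) (by simp [Function.update])
    set w := (fun y => (h y).take u.length)^[u.length] v with hw
    have e4 : Function.update (Function.update
        (Function.update (Function.update (single (0 : Fin 3) x) 1 u) 0 (pairCode u v)) 0
        (pairCode u w)) 1 [] = single 0 (pairCode u w) := by
      funext k
      fin_cases k <;> simp [single, Function.update]
    rw [e4] at r4
    -- 5. snd
    have r5 := Run.call (F := iterF h) (T := T) (1 : Fin 4) (0 : Fin 3)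
      (single 0 (pairCode u w))
    have e5 : iterF h 1 (single (0 : Fin 3) (pairCode u w) 0) = w := by
      simp [iterF, single]
    have l5 : (single (0 : Fin 3) (pairCode u w) 0).length = 2 * u.length + 1 + w.length := by
      simp [single]
    rw [e5, l5] at r5
    have e5' : Function.update (single (0 : Fin 3) (pairCode u w)) 0 w = single 0 w := by
      simp [single]
    rw [e5'] at r5
    have hwn : w.length ≤ n := by
      rw [hw]
      cases hul : u.length with
      | zero => simpa using hv
      | succ m =>
        rw [Function.iterate_succ_apply']
        refine le_trans (List.length_take_le _ _) ?_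
        omega
    refine Run.mono (Run.seq r1 (Run.seq r2 (Run.seq r3 (Run.seq r4 r5)))) ?_
    simp only [Polynomial.eval_add, Polynomial.eval_mul, Polynomial.eval_comp, Polynomial.eval_X,
      Polynomial.eval_ofNat, Polynomial.eval_one, hq]
    have t3 : (T 3).eval (2 * u.length + 1 + n) ≤ (T 3).eval (3 * n + 1) :=
      poly_mono _ (by omega)
    have t1 : (T 1).eval (2 * u.length + 1 + w.length) ≤ (T 1).eval (3 * n + 1) :=
      poly_mono _ (by omega)
    have l4 : (pairCode u v).length ≤ 3 * n + 1 := by rw [length_pairCode]; omega
    have t4 : u.length * ((T 3).eval (2 * u.length + 1 + n) + 4 * (2 * u.length + 1 + n) + 10) ≤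
        n * ((T 3).eval (3 * n + 1) + 4 * (3 * n + 1) + 10) :=
      Nat.mul_le_mul hu (by omega)
    omega

end Crest.Agent.PolyT
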