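import Crest.Agent.Lib.PolyTime.Core
import Crest.Agent.Lib.PolyTime.ProgLib
import Crest.Agent.Lib.PolyTime.CoreLen
import Crest.Agent.Lib.PolyTime.CoreUnpair
import Crest.Agent.Lib.PolyTime.Compile

/-! # PT_LENMUL: unary multiplication

Duplicate the input to a, b; `call fst a`, `call snd b`; then
`loop a isSome (pop a; (loop b isSome (pop b; push c true; push out true)); (loop c isSome (pop c; push b true)))`,
at the end clear b.  Output out. -/

set_option autoImplicit false

namespace Crest.Agent.PolyT

open Crest.Complexity

namespace LenMul

/-- four stacks -/
def st (a b c o : List Bool) : Fin 4 → List Bool := ![a, b, c, o]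

theorem st_zero (a b c o : List Bool) : st a b c o 0 = a := rfl
theorem st_one (a b c o : List Bool) : st a b c o 1 = b := rfl
theorem st_two (a b c o : List Bool) : st a b c o 2 = c := rfl
theorem st_three (a b c o : List Bool) : st a b c o 3 = o := rfl

theorem update_zero (a b c o x : List Bool) : Function.update (st a b c o) 0 x = st x b c o := by
  funext k
  fin_cases k <;> simp [st]

theorem update_one (a b c o x : List Bool) : Function.update (st a b c o) 1 x = st a x c o := by
  funext k
  fin_cases k <;> simp [st, Function.update]

theorem update_two (a b c o x : List Bool) : Function.update (st a b c o) 2 x = st a b x o := by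
  funext k
  fin_cases k <;> simp [st, Function.update]

theorem update_three (a b c o x : List Bool) : Function.update (st a b c o) 3 x = st a b c x := by
  funext k
  fin_cases k <;> simp [st, Function.update]

theorem single_zero (x : List Bool) : single (0 : Fin 4) x = st x [] [] [] := by
  funext k
  fin_cases k <;> simp [st, single, Function.update]

theorem single_three (x : List Bool) : single (3 : Fin 4) x = st [] [] [] x := by
  funext k
  fin_cases k <;> simp [st, single, Function.update]

variable {ι : Type} {F : ι → List Bool → List Bool} {T : ι → Polynomial ℕ}

/-- empty `b`, adding as many `true` to `c` and `o` -/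
def inner1 : Prog (Fin 4) ι :=
  Prog.loop 1 Option.isSome (Prog.seq (Prog.pop 1) (Prog.seq (Prog.push 2 true) (Prog.push 3 true)))

/-- empty `c`, adding as many `true` to `b` -/
def inner2 : Prog (Fin 4) ι :=
  Prog.loop 2 Option.isSome (Prog.seq (Prog.pop 2) (Prog.push 1 true))

theorem append_replicate_true (n : ℕ) (w : List Bool) :
    List.replicate n true ++ true :: w = List.replicate (n + 1) true ++ w := by
  rw [List.replicate_succ', List.append_assoc]
  rfl

theorem run_inner1 (a : List Bool) : ∀ (b c o : List Bool),
    Run F T (inner1 (ι := ι)) (st a b c o) (4 * b.length + 1)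
      (st a [] (List.replicate b.length true ++ c) (List.replicate b.length true ++ o))
  | [], c, o => by
    simpa [inner1] using Run.loop_done (F := F) (T := T) (k := (1 : Fin 4)) (c := Option.isSome)
      (P := Prog.seq (Prog.pop 1) (Prog.seq (Prog.push 2 true) (Prog.push 3 true)))
      (S := st a [] c o) (by simp [st_one])
  | x :: b, c, o => by
    have h1 := Run.pop (F := F) (T := T) (1 : Fin 4) (st a (x :: b) c o)
    rw [st_one, update_one, List.tail_cons] at h1
    have h2 := Run.push (F := F) (T := T) (2 : Fin 4) true (st a b c o)
    rw [st_two, update_two] at h2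
    have h3 := Run.push (F := F) (T := T) (3 : Fin 4) true (st a b (true :: c) o)
    rw [st_three, update_three] at h3
    have ih := run_inner1 a b (true :: c) (true :: o)
    have h := Run.loop_step (F := F) (T := T) (k := (1 : Fin 4)) (c := Option.isSome)
      (by simp [st_one]) (Run.seq h1 (Run.seq h2 h3)) ih
    rw [append_replicate_true, append_replicate_true] at h
    exact h.mono (by simp only [List.length_cons]; omega)

theorem run_inner2 (a : List Bool) : ∀ (c b o : List Bool),
    Run F T (inner2 (ι := ι)) (st a b c o) (3 * c.length + 1)
      (st a (List.replicate c.length true ++ b) [] o)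
  | [], b, o => by
    simpa [inner2] using Run.loop_done (F := F) (T := T) (k := (2 : Fin 4)) (c := Option.isSome)
      (P := Prog.seq (Prog.pop 2) (Prog.push 1 true))
      (S := st a b [] o) (by simp [st_two])
  | x :: c, b, o => by
    have h1 := Run.pop (F := F) (T := T) (2 : Fin 4) (st a b (x :: c) o)
    rw [st_two, update_two, List.tail_cons] at h1
    have h2 := Run.push (F := F) (T := T) (1 : Fin 4) true (st a b c o)
    rw [st_one, update_one] at h2
    have ih := run_inner2 a c (true :: b) o
    have h := Run.loop_step (F := F) (T := T) (k := (2 : Fin 4)) (c := Option.isSome)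
      (by simp [st_two]) (Run.seq h1 h2) ih
    rw [append_replicate_true] at h
    exact h.mono (by simp only [List.length_cons]; omega)

/-- add the length of `b` to `o` as often as `a` has symbols -/
def outer : Prog (Fin 4) ι :=
  Prog.loop 0 Option.isSome (Prog.seq (Prog.pop 0) (Prog.seq inner1 inner2))

theorem run_outer : ∀ (a b o : List Bool),
    ∃ b' : List Bool, b'.length = b.length ∧
    Run F T (outer (ι := ι)) (st a b [] o) (a.length * (7 * b.length + 4) + 1)
      (st [] b' [] (List.replicate (a.length * b.length) true ++ o))
  | [], b, o => by
    refine ⟨b, rfl, ?_⟩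
    simpa [outer] using Run.loop_done (F := F) (T := T) (k := (0 : Fin 4)) (c := Option.isSome)
      (P := Prog.seq (Prog.pop 0) (Prog.seq inner1 inner2))
      (S := st [] b [] o) (by simp [st_zero])
  | x :: a, b, o => by
    have h1 := Run.pop (F := F) (T := T) (0 : Fin 4) (st (x :: a) b [] o)
    rw [st_zero, update_zero, List.tail_cons] at h1
    have h2 := run_inner1 (F := F) (T := T) a b [] o
    have h3 := run_inner2 (F := F) (T := T) a (List.replicate b.length true ++ []) []
      (List.replicate b.length true ++ o)
    obtain ⟨b', hb', ih⟩ := run_outer a
      (List.replicate (List.replicate b.length true ++ []).length true ++ [])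
      (List.replicate b.length true ++ o)
    have hl : (List.replicate (List.replicate b.length true ++ []).length true ++ []).length =
        b.length := by simp
    have hl' : (List.replicate b.length true ++ [] : List Bool).length = b.length := by simp
    rw [hl] at hb' ih
    rw [hl'] at h3
    refine ⟨b', hb', ?_⟩
    rw [hl'] at ih
    have h := Run.loop_step (F := F) (T := T) (k := (0 : Fin 4)) (c := Option.isSome)
      (by simp [st_zero]) (Run.seq h1 (Run.seq h2 h3)) ih
    have e : List.replicate (a.length * b.length) true ++ (List.replicate b.length true ++ o) =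
        List.replicate ((x :: a).length * b.length) true ++ o := by
      rw [← List.append_assoc, List.replicate_append_replicate, List.length_cons, add_mul, one_mul]
    rw [e] at h
    refine h.mono ?_
    rw [List.length_cons, add_mul]
    omega

/-- the program -/
def prog : Prog (Fin 4) Bool :=
  Prog.seq (Prog.dup 0 2 1) (Prog.seq (Prog.call false 0) (Prog.seq (Prog.call true 1)
    (Prog.seq outer (Prog.clear 1))))

end LenMul

open LenMul in
theorem polyTime_lenMul :
    PolyTime (fun x => List.replicate ((fstCode x).length * (sndCode x).length) true) := by
  refine polyTime_of_run (K := Fin 4) (ι := Bool) (fun i => if i then sndCode else fstCode)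
    (fun i => by cases i <;> simp [polyTime_fst, polyTime_snd]) prog 0 3 _ ?_
  intro T
  refine ⟨T false + T true + Polynomial.C 30 * Polynomial.X +
    Polynomial.X * (Polynomial.C 7 * Polynomial.X + Polynomial.C 4) + Polynomial.C 30,
    fun x => ?_⟩
  set F : Bool → List Bool → List Bool := fun i => if i then sndCode else fstCode with hF
  have hFf : F false = fstCode := rfl
  have hFt : F true = sndCode := rfl
  have hu : (fstCode x).length ≤ x.length := length_fstCode_le x
  have hv : (sndCode x).length ≤ x.length := length_sndCode_le x
  rw [single_zero, single_three]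
  have r1 := run_dup (F := F) (T := T) (a := (0 : Fin 4)) (t := 2) (b := 1) (by decide) (by decide)
    (by decide) (st x [] [] []) rfl
  rw [update_one, st_zero, st_one, List.append_nil] at r1
  have r2 := Run.call (F := F) (T := T) false (0 : Fin 4) (st x x [] [])
  rw [update_zero, st_zero, hFf] at r2
  have r3 := Run.call (F := F) (T := T) true (1 : Fin 4) (st (fstCode x) x [] [])
  rw [update_one, st_one, hFt] at r3
  obtain ⟨b', hb', r4⟩ := run_outer (F := F) (T := T) (fstCode x) (sndCode x) []
  rw [List.append_nil] at r4
  have r5 := run_clear (F := F) (T := T) (1 : Fin 4) (st [] b' []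
    (List.replicate ((fstCode x).length * (sndCode x).length) true))
  rw [update_one, st_one] at r5
  have r := Run.seq r1 (Run.seq r2 (Run.seq r3 (Run.seq r4 r5)))
  refine Run.mono r ?_
  have h7 : (fstCode x).length * (7 * (sndCode x).length + 4) ≤
      x.length * (7 * x.length + 4) := Nat.mul_le_mul hu (by omega)
  simp only [Polynomial.eval_add, Polynomial.eval_mul, Polynomial.eval_C, Polynomial.eval_X]
  rw [hb']
  omega

end Crest.Agent.PolyT
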