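import Crest.Agent.Lib.PolyTime.PFBin

/-!
# Typed layer: binary addition, subtraction, comparison

Addition: iterate on the state `(x, y, c, acc)` (`acc` = bits of the result found so far, in reverse
order, i.e. most significant first): one step replaces `x, y` by `x / 2, y / 2`, `c` by the carry and
conses the sum bit on `acc`.  Invariant after `k` steps: `x₀ + y₀ = msb acc + 2^k (x + y + c)`,
`acc.length = k`.  After `size x₀ + size y₀ + 1` steps `x = y = c = 0`, so the sum is `msb acc`.
Subtraction: the same with a borrow, invariant `x₀ + 2^k (y + c) = msb acc + 2^k x + y₀` (in ℤ: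
`x₀ - y₀ = msb acc + 2^k (x - y - c)`); after `size x₀ + size y₀` steps the borrow is `1` iff `x₀ < y₀`.
-/

set_option autoImplicit false

namespace Crest.Agent.PT

open Crest.Complexity

/-! ### values of lists of bits -/

theorem foldl_bit (l : List Bool) (v : ℕ) :
    l.foldl (fun v b => Nat.bit b v) v = 2 ^ l.length * v + msb l := by
  induction l generalizing v with
  | nil => simp [msb]
  | cons b l ih =>
    have h1 : msb (b :: l) = l.foldl (fun v b => Nat.bit b v) (Nat.bit b 0) := rfl
    rw [List.foldl_cons, ih, h1, ih, List.length_cons, pow_succ, Nat.bit_val, Nat.bit_val]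
    ring

theorem msb_nil : msb [] = 0 := rfl

theorem msb_cons (b : Bool) (l : List Bool) : msb (b :: l) = 2 ^ l.length * b.toNat + msb l := by
  have h1 : msb (b :: l) = l.foldl (fun v b => Nat.bit b v) (Nat.bit b 0) := rfl
  rw [h1, foldl_bit, Nat.bit_val]
  simp

theorem msb_lt (l : List Bool) : msb l < 2 ^ l.length := by
  induction l with
  | nil => simp [msb]
  | cons b l ih =>
    rw [msb_cons, List.length_cons, pow_succ]
    have : b.toNat ≤ 1 := Bool.toNat_le b
    nlinarith

/-! ### boolean functions of three bits -/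

theorem PF.bool3 (f : Bool → Bool → Bool → Bool) :
    PF (pe bo (pe bo bo)) bo (fun p => f p.1 p.2.1 p.2.2) := by
  have h1 : PF (pe bo (pe bo bo)) bo (fun p => p.1) := PF.fst
  have h2 : PF (pe bo (pe bo bo)) bo (fun p => p.2.1) := PF.fst' PF.snd
  have h3 : PF (pe bo (pe bo bo)) bo (fun p => p.2.2) := PF.snd' PF.snd
  refine PF.congr (PF.cond h1
    (PF.cond h2
      (PF.cond h3 (PF.const (f true true true)) (PF.const (f true true false)))
      (PF.cond h3 (PF.const (f true false true)) (PF.const (f true false false))))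
    (PF.cond h2
      (PF.cond h3 (PF.const (f false true true)) (PF.const (f false true false)))
      (PF.cond h3 (PF.const (f false false true)) (PF.const (f false false false))))) ?_
  rintro ⟨a, b, c⟩
  cases a <;> cases b <;> cases c <;> rfl

/-! ### the transducer -/

/-- one step of a serial two-input transducer -/
def tstep (f g : Bool → Bool → Bool → Bool) (s : ℕ × ℕ × Bool × List Bool) :
    ℕ × ℕ × Bool × List Bool :=
  (s.1.div2, s.2.1.div2, f s.1.bodd s.2.1.bodd s.2.2.1,
    g s.1.bodd s.2.1.bodd s.2.2.1 :: s.2.2.2)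

theorem tstep_fst (f g : Bool → Bool → Bool → Bool) (k : ℕ) (s : ℕ × ℕ × Bool × List Bool) :
    ((tstep f g)^[k] s).1 = s.1 / 2 ^ k := by
  induction k with
  | zero => simp
  | succ k ih =>
    rw [Function.iterate_succ_apply']
    show ((tstep f g)^[k] s).1.div2 = _
    rw [ih, Nat.div2_val, Nat.div_div_eq_div_mul, ← pow_succ]

theorem tstep_snd (f g : Bool → Bool → Bool → Bool) (k : ℕ) (s : ℕ × ℕ × Bool × List Bool) :
    ((tstep f g)^[k] s).2.1 = s.2.1 / 2 ^ k := by
  induction k with
  | zero => simp
  | succ k ih =>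
    rw [Function.iterate_succ_apply']
    show ((tstep f g)^[k] s).2.1.div2 = _
    rw [ih, Nat.div2_val, Nat.div_div_eq_div_mul, ← pow_succ]

theorem tstep_length (f g : Bool → Bool → Bool → Bool) (k : ℕ) (s : ℕ × ℕ × Bool × List Bool) :
    ((tstep f g)^[k] s).2.2.2.length = s.2.2.2.length + k := by
  induction k with
  | zero => simp
  | succ k ih =>
    rw [Function.iterate_succ_apply']
    show (((tstep f g)^[k] s).2.2.2.length + 1) = _
    rw [ih]; ring

theorem PF.tstep (f g : Bool → Bool → Bool → Bool) :
    PF (pe bn (pe bn (pe bo ls))) (pe bn (pe bn (pe bo ls))) (tstep f g) := by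
  have h1 : PF (pe bn (pe bn (pe bo ls))) bn (fun s => s.1) := PF.fst
  have h2 : PF (pe bn (pe bn (pe bo ls))) bn (fun s => s.2.1) := PF.fst' PF.snd
  have h3 : PF (pe bn (pe bn (pe bo ls))) bo (fun s => s.2.2.1) := PF.fst' (PF.snd' PF.snd)
  have h4 : PF (pe bn (pe bn (pe bo ls))) ls (fun s => s.2.2.2) := PF.snd' (PF.snd' PF.snd)
  have h5 : PF (pe bn (pe bn (pe bo ls))) (pe bo (pe bo bo))
      (fun s => (s.1.bodd, s.2.1.bodd, s.2.2.1)) :=
    PF.pair (PF.comp PF.bn_bodd h1) (PF.pair (PF.comp PF.bn_bodd h2) h3)
  exact PF.pair (PF.comp PF.bn_div2 h1) (PF.pair (PF.comp PF.bn_div2 h2)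
    (PF.pair (PF.comp (PF.bool3 f) h5) (PF.comp PF.lcons (PF.pair (PF.comp (PF.bool3 g) h5) h4))))

theorem PF.transducer (f g : Bool → Bool → Bool → Bool) :
    PF (pe bn bn) (pe bo ls)
      (fun p => ((PT.tstep f g)^[p.1.size + p.2.size + 1] (p.1, p.2, false, [])).2.2) := by
  have hlen : PF (pe bn bn) un (fun p => p.1.size + p.2.size + 1) := by
    refine PF.congr (PF.comp PF.llength (PF.comp PF.lappend (PF.pair
      (PF.comp PF.lappend (PF.pair (PF.comp PF.bn_ls PF.fst) (PF.comp PF.bn_ls PF.snd)))
      (PF.const (eb := ls) [false])))) ?_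
    rintro ⟨x, y⟩
    simp [Nat.size_eq_bits_len, add_assoc]
  have hinit : PF (pe bn bn) (pe bn (pe bn (pe bo ls)))
      (fun p => (p.1, p.2, false, ([] : List Bool))) :=
    PF.pair PF.fst (PF.pair PF.snd (PF.pair (PF.const false) (PF.const (eb := ls) [])))
  have hiter := PF.iter hinit (PF.tstep f g) hlen (Polynomial.C 6 * Polynomial.X + Polynomial.C 6) ?_
  · exact PF.snd' (PF.snd' hiter)
  · rintro ⟨x, y⟩ i hi
    have e1 := tstep_fst f g i (x, y, false, [])
    have e2 := tstep_snd f g i (x, y, false, [])
    have e3 := tstep_length f g i (x, y, false, [])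
    have e4 : (bn ((PT.tstep f g)^[i] (x, y, false, [])).1).length ≤ x.size := by
      rw [e1, bn_length]
      exact Nat.size_le_size (Nat.div_le_self _ _)
    have e5 : (bn ((PT.tstep f g)^[i] (x, y, false, [])).2.1).length ≤ y.size := by
      rw [e2, bn_length]
      exact Nat.size_le_size (Nat.div_le_self _ _)
    simp only [pe_length, bo_length, ls_length, e3, bn_length, List.length_nil,
      Polynomial.eval_add, Polynomial.eval_mul, Polynomial.eval_C, Polynomial.eval_X] at hi e4 e5 ⊢
    omega

theorem PF.bn_add : PF (pe bn bn) bn (fun p => p.1 + p.2) := by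
  let f : Bool → Bool → Bool → Bool := fun a b c => (a && b) || (a && c) || (b && c)
  let g : Bool → Bool → Bool → Bool := fun a b c => xor a (xor b c)
  refine PF.congr (PF.comp PF.msb (PF.snd' (PF.transducer f g))) ?_
  rintro ⟨x, y⟩
  have inv : ∀ k, x + y = PT.msb ((PT.tstep f g)^[k] (x, y, false, [])).2.2.2 +
      2 ^ k * (((PT.tstep f g)^[k] (x, y, false, [])).1 + ((PT.tstep f g)^[k] (x, y, false, [])).2.1 +
        ((PT.tstep f g)^[k] (x, y, false, [])).2.2.1.toNat) := by
    intro k
    induction k with
    | zero => simp [msb_nil]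
    | succ k ih =>
      have hl := tstep_length f g k (x, y, false, [])
      rw [Function.iterate_succ_apply']
      generalize (PT.tstep f g)^[k] (x, y, false, []) = s at ih hl ⊢
      obtain ⟨u, v, c, acc⟩ := s
      simp only [List.length_nil, zero_add] at hl
      simp only at ih
      rw [ih]
      simp only [PT.tstep, msb_cons, hl]
      have hu := Nat.bodd_add_div2 u
      have hv := Nat.bodd_add_div2 v
      have hkey : u + v + c.toNat = (g u.bodd v.bodd c).toNat +
          2 * (u.div2 + v.div2 + (f u.bodd v.bodd c).toNat) := by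
        generalize u.div2 = u' at hu ⊢
        generalize v.div2 = v' at hv ⊢
        generalize u.bodd = bu at hu ⊢
        generalize v.bodd = bv at hv ⊢
        subst hu hv
        cases bu <;> cases bv <;> cases c <;> simp [f, g] <;> ring
      rw [hkey, pow_succ]
      ring
  have hN := inv (x.size + y.size + 1)
  have h1 := tstep_fst f g (x.size + y.size + 1) (x, y, false, [])
  have h2 := tstep_snd f g (x.size + y.size + 1) (x, y, false, [])
  have hx : x < 2 ^ (x.size + y.size) :=
    lt_of_lt_of_le (Nat.lt_size_self x) (Nat.pow_le_pow_right (by norm_num) (by omega))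
  have hy : y < 2 ^ (x.size + y.size) :=
    lt_of_lt_of_le (Nat.lt_size_self y) (Nat.pow_le_pow_right (by norm_num) (by omega))
  have hxy : x + y < 2 ^ (x.size + y.size + 1) := by rw [pow_succ]; omega
  show PT.msb ((PT.tstep f g)^[x.size + y.size + 1] (x, y, false, [])).2.2.2 = x + y
  generalize (PT.tstep f g)^[x.size + y.size + 1] (x, y, false, []) = s at hN h1 h2 ⊢
  generalize x.size + y.size + 1 = N at hN h1 h2 hxy ⊢
  have h3 : 2 ^ N * (s.1 + s.2.1 + s.2.2.1.toNat) < 2 ^ N * 1 := by omega
  have h4 : s.1 + s.2.1 + s.2.2.1.toNat < 1 := lt_of_mul_lt_mul_left h3 (Nat.zero_le _)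
  have h5 : s.1 + s.2.1 + s.2.2.1.toNat = 0 := by omega
  rw [h5] at hN
  omega

/-- the borrow transducer: final borrow and difference bits -/
theorem sub_transducer (x y : ℕ) (s : ℕ × ℕ × Bool × List Bool)
    (hs : s = (PT.tstep (fun a b c => (!a && (b || c)) || (b && c)) (fun a b c => xor a (xor b c)))^[
      x.size + y.size + 1] (x, y, false, [])) :
    s.2.2.1 = decide (x < y) ∧ (¬ x < y → msb s.2.2.2 = x - y) := by
  set f : Bool → Bool → Bool → Bool := fun a b c => (!a && (b || c)) || (b && c) with hf
  set g : Bool → Bool → Bool → Bool := fun a b c => xor a (xor b c) with hg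
  have inv : ∀ k, x + 2 ^ k * (((PT.tstep f g)^[k] (x, y, false, [])).2.1 +
        ((PT.tstep f g)^[k] (x, y, false, [])).2.2.1.toNat) =
      y + msb ((PT.tstep f g)^[k] (x, y, false, [])).2.2.2 +
      2 ^ k * ((PT.tstep f g)^[k] (x, y, false, [])).1 := by
    intro k
    induction k with
    | zero => simp [msb_nil, add_comm]
    | succ k ih =>
      have hl := tstep_length f g k (x, y, false, [])
      rw [Function.iterate_succ_apply']
      generalize (PT.tstep f g)^[k] (x, y, false, []) = s at ih hl ⊢
      obtain ⟨u, v, c, acc⟩ := s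
      simp only [List.length_nil, zero_add] at hl
      simp only at ih
      simp only [PT.tstep, msb_cons, hl]
      have hu := Nat.bodd_add_div2 u
      have hv := Nat.bodd_add_div2 v
      have hkey : (v + c.toNat) + (g u.bodd v.bodd c).toNat + 2 * u.div2 =
          u + 2 * (v.div2 + (f u.bodd v.bodd c).toNat) := by
        generalize u.div2 = u' at hu ⊢
        generalize v.div2 = v' at hv ⊢
        generalize u.bodd = bu at hu ⊢
        generalize v.bodd = bv at hv ⊢
        subst hu hv
        cases bu <;> cases bv <;> cases c <;> simp [f, g] <;> ring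
      have hkey2 := congrArg (fun z => 2 ^ k * z) hkey
      simp only [mul_add] at hkey2 ih ⊢
      rw [pow_succ]
      have e1 : 2 ^ k * 2 * v.div2 = 2 ^ k * (2 * v.div2) := by ring
      have e2 : 2 ^ k * 2 * (f u.bodd v.bodd c).toNat = 2 ^ k * (2 * (f u.bodd v.bodd c).toNat) := by
        ring
      have e3 : 2 ^ k * 2 * u.div2 = 2 ^ k * (2 * u.div2) := by ring
      rw [e1, e2, e3]
      omega
  have hN := inv (x.size + y.size + 1)
  have h1 := tstep_fst f g (x.size + y.size + 1) (x, y, false, [])
  have h2 := tstep_snd f g (x.size + y.size + 1) (x, y, false, [])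
  have h3 := tstep_length f g (x.size + y.size + 1) (x, y, false, [])
  have hx : x < 2 ^ (x.size + y.size + 1) :=
    lt_of_lt_of_le (Nat.lt_size_self x) (Nat.pow_le_pow_right (by norm_num) (by omega))
  have hy : y < 2 ^ (x.size + y.size + 1) :=
    lt_of_lt_of_le (Nat.lt_size_self y) (Nat.pow_le_pow_right (by norm_num) (by omega))
  rw [← hs] at hN h1 h2 h3
  have h4 := msb_lt s.2.2.2
  generalize x.size + y.size + 1 = N at hN h1 h2 h3 hx hy
  simp only at h1 h2
  rw [Nat.div_eq_of_lt hx] at h1
  rw [Nat.div_eq_of_lt hy] at h2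
  simp only [List.length_nil, zero_add] at h3
  rw [h3] at h4
  rw [h1, h2] at hN
  simp only [zero_add, mul_zero, add_zero] at hN
  cases hc : s.2.2.1
  · rw [hc] at hN
    simp only [Bool.toNat_false, mul_zero, add_zero] at hN
    constructor
    · symm
      rw [decide_eq_false_iff_not]
      omega
    · intro _
      omega
  · rw [hc] at hN
    simp only [Bool.toNat_true, mul_one] at hN
    constructor
    · symm
      rw [decide_eq_true_iff]
      omega
    · intro h
      omega

theorem PF.bn_lt : PF (pe bn bn) bo (fun p => decide (p.1 < p.2)) := by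
  refine PF.congr (PF.fst' (PF.transducer (fun a b c => (!a && (b || c)) || (b && c))
    (fun a b c => xor a (xor b c)))) ?_
  rintro ⟨x, y⟩
  exact (sub_transducer x y _ rfl).1

/-- truncated subtraction -/
theorem PF.bn_sub : PF (pe bn bn) bn (fun p => p.1 - p.2) := by
  have h1 : PF (pe bn bn) bn _ := PF.comp PF.msb
    (PF.snd' (PF.transducer (fun a b c => (!a && (b || c)) || (b && c))
      (fun a b c => xor a (xor b c))))
  refine PF.congr (PF.cond PF.bn_lt (PF.const 0) h1) ?_
  rintro ⟨x, y⟩
  by_cases h : x < y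
  · simp only [h, decide_true, if_true]
    omega
  · simp only [h, decide_false, Bool.false_eq_true, if_false]
    exact (sub_transducer x y _ rfl).2 h

end Crest.Agent.PT
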