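import Crest.Agent.Lib.PolyTime.PFCore

/-!
# Typed layer: bit lists and booleans
-/

set_option autoImplicit false

namespace Crest.Agent.PT

open Crest.Complexity

/-! ### bit lists -/

theorem PF.lappend : PF (pe ls ls) ls (fun p => p.1 ++ p.2) :=
  ⟨_, PolyTime.append, fun a => by simp [pe, ls]⟩

theorem PF.lcons : PF (pe bo ls) ls (fun p => p.1 :: p.2) := by
  have h : PF (pe bo ls) (pe ls ls) (fun p => ([p.1], p.2)) :=
    PF.pair (f := fun p : Bool × List Bool => [p.1]) (PF.fst.recode (fun _ => rfl)) PF.snd
  exact PF.comp (g := fun p : List Bool × List Bool => p.1 ++ p.2) PF.lappend h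

theorem PF.ltail : PF ls ls List.tail := ⟨_, PolyTime.tail, fun _ => rfl⟩

theorem PF.lreverse : PF ls ls List.reverse := ⟨_, PolyTime.reverse, fun _ => rfl⟩

theorem PF.lhead : PF ls bo (fun l => l.headD false) := by
  refine ⟨_, PolyTime.case PolyTime.id (PolyTime.const [false]) (PolyTime.const [false])
    (PolyTime.const [true]), fun a => ?_⟩
  rcases a with _ | ⟨_ | _, a⟩ <;> rfl

theorem PF.lisEmpty : PF ls bo List.isEmpty := by
  refine ⟨_, PolyTime.case PolyTime.id (PolyTime.const [true]) (PolyTime.const [false])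
    (PolyTime.const [false]), fun a => ?_⟩
  rcases a with _ | ⟨_ | _, a⟩ <;> rfl

/-- length in unary (iterate over the list: `llen` state `(l, acc)`, or from `PolyTime` primitives) -/
theorem PF.llength : PF ls un List.length := by
  obtain ⟨F, hF, hF'⟩ := PolyTime.iterPad (PolyTime.cons true) Polynomial.X
  have hrep : ∀ i : ℕ, (fun x : List Bool => true :: x)^[i] [] = List.replicate i true := by
    intro i
    induction i with
    | zero => rfl
    | succ i ih => rw [Function.iterate_succ_apply', ih, List.replicate_succ]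
  refine ⟨_, PolyTime.comp hF (PolyTime.pr PolyTime.id (PolyTime.pr PolyTime.id
    (PolyTime.const []))), fun a => ?_⟩
  show F (pr (ls a) (pr (ls a) [])) = _
  rw [hF', hrep]
  · rfl
  · intro i hi
    rw [hrep, List.length_replicate, Polynomial.eval_X]
    exact hi

/-! ### booleans -/

theorem PF.bnot : PF bo bo (fun b => !b) :=
  (PF.cond (c := fun b => b) PF.id (PF.const false) (PF.const true)).congr (by decide)

theorem PF.band : PF (pe bo bo) bo (fun p => p.1 && p.2) :=
  (PF.cond (c := fun p : Bool × Bool => p.1) PF.fst PF.snd (PF.const false)).congr (by decide)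

theorem PF.bor : PF (pe bo bo) bo (fun p => p.1 || p.2) :=
  (PF.cond (c := fun p : Bool × Bool => p.1) PF.fst (PF.const true) PF.snd).congr (by decide)

theorem PF.bxor : PF (pe bo bo) bo (fun p => xor p.1 p.2) :=
  (PF.cond (c := fun p : Bool × Bool => p.1) PF.fst (PF.comp PF.bnot PF.snd) PF.snd).congr
    (by decide)

/-- the one bit list -/
theorem PF.bo_ls : PF bo ls (fun b => [b]) := ⟨_, PolyTime.id, fun _ => rfl⟩

end Crest.Agent.PT
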