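import Crest.Agent.Lib.PolyTime.PFRec
import Crest.Agent.Lib.PolyTime.PFList
import Crest.Prelude.Def_BitEnc

/-!
# Typed layer: binary arithmetic (`bn n = n.bits`, least significant bit first, canonical)
-/

set_option autoImplicit false

namespace Crest.Agent.PT

open Crest.Complexity

/-! ### basic operations -/

theorem PF.bn_ls : PF bn ls (fun n => n.bits) := ⟨_, PolyTime.id, fun _ => rfl⟩

namespace PFBinaux

/-- the bits of a number: empty for `0`, else the parity followed by the bits of the half -/
theorem bits_cases (n : ℕ) : (n = 0 ∧ n.bits = []) ∨ (n ≠ 0 ∧ n.bits = n.bodd :: n.div2.bits) := by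
  by_cases h : n = 0
  · left
    subst h
    exact ⟨rfl, Nat.zero_bits⟩
  · right
    refine ⟨h, ?_⟩
    have h1 := Nat.bits_append_bit n.div2 n.bodd (fun h2 => by
      cases h3 : n.bodd with
      | true => rfl
      | false =>
        have h4 := Nat.bit_bodd_div2 n
        rw [h2, h3] at h4
        exact absurd h4.symm h)
    rwa [Nat.bit_bodd_div2] at h1

end PFBinaux

open PFBinaux

theorem PF.bn_bodd : PF bn bo Nat.bodd := by
  refine ⟨_, PolyTime.case PolyTime.id (PolyTime.const [false]) (PolyTime.const [false])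
    (PolyTime.const [true]), fun n => ?_⟩
  rcases bits_cases n with ⟨h, h1⟩ | ⟨h, h1⟩
  · rw [bn, h1, h]
    rfl
  · rw [bn, h1]
    cases n.bodd <;> rfl

theorem PF.bn_div2 : PF bn bn Nat.div2 := by
  refine ⟨_, PolyTime.tail, fun n => ?_⟩
  rcases bits_cases n with ⟨h, h1⟩ | ⟨h, h1⟩
  · rw [bn, h1, h]
    simp [bn]
  · rw [bn, h1]
    rfl

theorem PF.bn_isZero : PF bn bo (fun n => decide (n = 0)) := by
  refine ⟨_, PolyTime.case PolyTime.id (PolyTime.const [true]) (PolyTime.const [false])
    (PolyTime.const [false]), fun n => ?_⟩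
  rcases bits_cases n with ⟨h, h1⟩ | ⟨h, h1⟩
  · rw [bn, h1, h]
    rfl
  · have h2 : decide (n = 0) = false := decide_eq_false h
    simp only [bn, h1, h2]
    cases n.bodd <;> rfl

theorem PF.bn_bit : PF (pe bo bn) bn (fun p => Nat.bit p.1 p.2) := by
  refine ⟨_, PolyTime.case PolyTime.psnd
    (PolyTime.case PolyTime.pfst (PolyTime.const []) (PolyTime.const []) (PolyTime.const [true]))
    PolyTime.append PolyTime.append, fun p => ?_⟩
  obtain ⟨b, n⟩ := p
  simp only [pe, pfst_pr, psnd_pr]
  rcases bits_cases n with ⟨h, h1⟩ | ⟨h, h1⟩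
  · rw [bn, h1, h]
    cases b
    · simp [bn, bo]
    · simp [bn, bo]
  · have h2 : bn (Nat.bit b n) = b :: n.bits := Nat.bits_append_bit n b (fun h3 => absurd h3 h)
    rw [h2, bn]
    rw [h1]
    cases n.bodd <;> rfl

theorem PF.bn_size : PF bn un Nat.size := by
  refine PF.congr (PF.comp PF.llength PF.bn_ls) (fun n => ?_)
  rw [Nat.size_eq_bits_len]

/-- value of a list of bits, most significant first -/
def msb (l : List Bool) : ℕ := l.foldl (fun v b => Nat.bit b v) 0

namespace PFBinaux

theorem foldl_size (l : List Bool) (v : ℕ) :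
    (l.foldl (fun v b => Nat.bit b v) v).size ≤ v.size + l.length := by
  induction l generalizing v with
  | nil => simp
  | cons b l ih =>
    simp only [List.foldl_cons, List.length_cons]
    refine (ih _).trans ?_
    have : (Nat.bit b v).size ≤ v.size + 1 := by
      rw [Nat.size_le, pow_succ]
      have h1 := Nat.lt_size_self v
      rw [Nat.bit_val]
      have h2 : b.toNat ≤ 1 := by cases b <;> simp
      omega
    omega

end PFBinaux

theorem PF.msb : PF ls bn msb := by
  have hf : PF (pe ls (pe bo bn)) bn (fun p : List Bool × (Bool × ℕ) => Nat.bit p.2.1 p.2.2) :=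
    PF.comp (f := fun p : List Bool × (Bool × ℕ) => p.2) PF.bn_bit PF.snd
  refine PF.foldl (ec := ls) (es := bn) (l := fun l => l) (init := fun _ => 0)
    (f := fun _ v b => Nat.bit b v) PF.id (PF.const 0) hf Polynomial.X ?_
  intro c l₁ l₂ h
  rw [bn_length, Polynomial.eval_X, ls_length, h, List.length_append]
  have := foldl_size l₁ 0
  rw [Nat.size_zero] at this
  omega

end Crest.Agent.PT
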