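import Crest.Agent.Lib.PolyTime.PFDefs

/-!
# `flatMap` over ranges
-/

set_option autoImplicit false

namespace Crest.Agent.PT

open Crest.Complexity

namespace FmAux

theorem nrec_eq (g : ℕ → List Bool) (n : ℕ) :
    nrec ([] : List Bool) (fun i acc => acc ++ g i) n = (List.range n).flatMap g := by
  induction n with
  | zero => simp [nrec]
  | succ n ih =>
    rw [nrec, ih, List.range_succ, List.flatMap_append]
    simp

theorem length_le (g : ℕ → List Bool) (n B : ℕ) (h : ∀ i < n, (g i).length ≤ B) :
    (nrec ([] : List Bool) (fun i acc => acc ++ g i) n).length ≤ n * B := by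
  induction n with
  | zero => simp [nrec]
  | succ n ih =>
    rw [nrec, List.length_append]
    have h1 := ih (fun i hi => h i (by omega))
    have h2 := h n (by omega)
    calc _ ≤ n * B + B := Nat.add_le_add h1 h2
      _ = (n + 1) * B := by ring

end FmAux

/-- `PF.natrec` with state a list of bits (append at the end) -/
theorem PG.flatMap {b : List ℕ → ℕ} {F : List ℕ → List Bool} (hb : PU b) (hF : PG F) :
    PG (fun env => (List.range (b env)).flatMap (fun i => F (i :: env))) := by
  obtain ⟨qb, hqb⟩ := PF.length_le hb
  obtain ⟨qF, hqF⟩ := PF.length_le hF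
  have hcons : PF (pe ue (pe un ls)) ue (fun p : List ℕ × ℕ × List Bool => p.2.1 :: p.1) :=
    PF.comp (g := fun p : ℕ × List ℕ => p.1 :: p.2)
      (f := fun p : List ℕ × ℕ × List Bool => (p.2.1, p.1)) PF.ue_cons
      (PF.pair (PF.fst' PF.snd) PF.fst)
  have hf : PF (pe ue (pe un ls)) ls
      (fun p : List ℕ × ℕ × List Bool => p.2.2 ++ F (p.2.1 :: p.1)) :=
    PF.comp (g := fun p : List Bool × List Bool => p.1 ++ p.2)
      (f := fun p : List ℕ × ℕ × List Bool => (p.2.2, F (p.2.1 :: p.1))) PF.lappend
      (PF.pair (PF.snd' PF.snd) (PF.comp hF hcons))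
  have key := PF.natrec (ec := ue) (es := ls) (n := b) (init := fun _ => ([] : List Bool))
    (f := fun env i acc => acc ++ F (i :: env)) hb (PF.const (eb := ls) ([] : List Bool)) hf
    (qb * qF.comp (qb + Polynomial.X + 1)) (by
      intro env i hi
      have hbe : b env ≤ qb.eval (ue env).length := by
        have := hqb env
        rwa [un_length] at this
      rw [ls_length]
      refine (FmAux.length_le (fun i => F (i :: env)) i
        (qF.eval (qb.eval (ue env).length + (ue env).length + 1)) ?_).trans ?_
      · intro j hj
        refine (hqF (j :: env)).trans (eval_mono qF ?_)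
        rw [ue_cons, List.length_append, un_length, List.length_cons]
        omega
      · rw [Polynomial.eval_mul, Polynomial.eval_comp, Polynomial.eval_add, Polynomial.eval_add,
          Polynomial.eval_X, Polynomial.eval_one]
        exact Nat.mul_le_mul_right _ (hi.trans hbe))
  exact PF.congr key (fun env => FmAux.nrec_eq (fun i => F (i :: env)) (b env))

end Crest.Agent.PT
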