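import Crest.Agent.Lib.PolyTime.PFSum
import Crest.Agent.Lib.PolyTime.PFFm

/-!
# Closure properties of the classes `PU`, `PN`, `PB`, `PG`, `PE`
-/

set_option autoImplicit false

namespace Crest.Agent.PT

open Crest.Complexity

/-! ### unary -/

theorem PU.var (i : ℕ) : PU (fun env => env.getD i 0) := PF.ue_get i
theorem PU.const (c : ℕ) : PU (fun _ => c) := PF.const c
theorem PU.add {F G : List ℕ → ℕ} (hF : PU F) (hG : PU G) : PU (fun env => F env + G env) :=
  PF.comp PF.un_add (PF.pair hF hG)
theorem PU.sub {F G : List ℕ → ℕ} (hF : PU F) (hG : PU G) : PU (fun env => F env - G env) :=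
  PF.comp PF.un_sub (PF.pair hF hG)
theorem PU.mul {F G : List ℕ → ℕ} (hF : PU F) (hG : PU G) : PU (fun env => F env * G env) :=
  PF.comp PF.un_mul (PF.pair hF hG)
theorem PU.div {F G : List ℕ → ℕ} (hF : PU F) (hG : PU G) : PU (fun env => F env / G env) :=
  PF.comp PF.un_div (PF.pair hF hG)
theorem PU.mod {F G : List ℕ → ℕ} (hF : PU F) (hG : PU G) : PU (fun env => F env % G env) :=
  PF.comp PF.un_mod (PF.pair hF hG)
theorem PU.ite {c : List ℕ → Bool} {F G : List ℕ → ℕ} (hc : PB c) (hF : PU F) (hG : PU G) :
    PU (fun env => if c env then F env else G env) := PF.cond hc hF hG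
theorem PU.congr {F G : List ℕ → ℕ} (hF : PU F) (h : ∀ env, F env = G env) : PU G := PF.congr hF h
/-- size (number of binary digits) -/
theorem PU.size {F : List ℕ → ℕ} (hF : PN F) : PU (fun env => (F env).size) := PF.comp PF.bn_size hF
/-- a binary valued function with a unary bound is unary valued -/
theorem PU.ofPN {F b : List ℕ → ℕ} (hF : PN F) (hb : PU b) (h : ∀ env, F env ≤ b env) : PU F :=
  PF.congr (PF.comp PF.bn_un_min (PF.pair hb hF)) (fun env => min_eq_right (h env))

/-! ### booleans -/

theorem PB.const (c : Bool) : PB (fun _ => c) := PF.const c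
theorem PB.lt {F G : List ℕ → ℕ} (hF : PU F) (hG : PU G) : PB (fun env => decide (F env < G env)) :=
  PF.comp PF.un_lt (PF.pair hF hG)
theorem PB.eq {F G : List ℕ → ℕ} (hF : PU F) (hG : PU G) : PB (fun env => decide (F env = G env)) :=
  PF.comp PF.un_eq (PF.pair hF hG)
theorem PB.ltN {F G : List ℕ → ℕ} (hF : PN F) (hG : PN G) : PB (fun env => decide (F env < G env)) :=
  PF.comp PF.bn_lt (PF.pair hF hG)
theorem PB.not {F : List ℕ → Bool} (hF : PB F) : PB (fun env => !F env) := PF.comp PF.bnot hF
theorem PB.and {F G : List ℕ → Bool} (hF : PB F) (hG : PB G) : PB (fun env => F env && G env) :=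
  PF.comp PF.band (PF.pair hF hG)
theorem PB.or {F G : List ℕ → Bool} (hF : PB F) (hG : PB G) : PB (fun env => F env || G env) :=
  PF.comp PF.bor (PF.pair hF hG)
theorem PB.congr {F G : List ℕ → Bool} (hF : PB F) (h : ∀ env, F env = G env) : PB G := PF.congr hF h

/-! ### substitution -/

theorem PE.nil : PE (fun _ => []) := PF.const []
theorem PE.id : PE (fun env => env) := PF.id
theorem PE.tail : PE List.tail := PF.ue_tail
theorem PE.cons {F : List ℕ → ℕ} {G : List ℕ → List ℕ} (hF : PU F) (hG : PE G) :
    PE (fun env => F env :: G env) :=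
  PF.comp (g := fun p : ℕ × List ℕ => p.1 :: p.2) PF.ue_cons (PF.pair hF hG)
theorem PE.comp {F G : List ℕ → List ℕ} (hF : PE F) (hG : PE G) : PE (fun env => F (G env)) :=
  PF.comp hF hG
theorem PU.subst {F : List ℕ → ℕ} {G : List ℕ → List ℕ} (hF : PU F) (hG : PE G) :
    PU (fun env => F (G env)) := PF.comp hF hG
theorem PN.subst {F : List ℕ → ℕ} {G : List ℕ → List ℕ} (hF : PN F) (hG : PE G) :
    PN (fun env => F (G env)) := PF.comp hF hG
theorem PB.subst {F : List ℕ → Bool} {G : List ℕ → List ℕ} (hF : PB F) (hG : PE G) :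
    PB (fun env => F (G env)) := PF.comp hF hG
theorem PG.subst {F : List ℕ → List Bool} {G : List ℕ → List ℕ} (hF : PG F) (hG : PE G) :
    PG (fun env => F (G env)) := PF.comp hF hG

/-! ### binary -/

theorem PN.const (c : ℕ) : PN (fun _ => c) := PF.const c
theorem PN.ofPU {F : List ℕ → ℕ} (hF : PU F) : PN F := PF.comp (g := fun n : ℕ => n) PF.un_bn hF
theorem PN.add {F G : List ℕ → ℕ} (hF : PN F) (hG : PN G) : PN (fun env => F env + G env) :=
  PF.comp PF.bn_add (PF.pair hF hG)
theorem PN.sub {F G : List ℕ → ℕ} (hF : PN F) (hG : PN G) : PN (fun env => F env - G env) :=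
  PF.comp PF.bn_sub (PF.pair hF hG)
theorem PN.mul {F G : List ℕ → ℕ} (hF : PN F) (hG : PN G) : PN (fun env => F env * G env) :=
  PF.comp PF.bn_mul (PF.pair hF hG)
theorem PN.ite {c : List ℕ → Bool} {F G : List ℕ → ℕ} (hc : PB c) (hF : PN F) (hG : PN G) :
    PN (fun env => if c env then F env else G env) := PF.cond hc hF hG
theorem PN.congr {F G : List ℕ → ℕ} (hF : PN F) (h : ∀ env, F env = G env) : PN G := PF.congr hF h

theorem PN.pow {F e : List ℕ → ℕ} (hF : PN F) (he : PU e) : PN (fun env => F env ^ e env) := by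
  refine PN.congr (PN.prod he (F := fun env => F env.tail) (PN.subst hF PE.tail)) (fun env => ?_)
  simp

theorem PN.factorial {F : List ℕ → ℕ} (hF : PU F) : PN (fun env => (F env).factorial) := by
  refine PN.congr (PN.prod hF (F := fun env => env.getD 0 0 + 1)
    (PN.ofPU (PU.add (PU.var 0) (PU.const 1)))) (fun env => ?_)
  simp [Finset.prod_range_add_one_eq_factorial]

/-! ### lists -/

theorem PG.const (l : List Bool) : PG (fun _ => l) := PF.const (eb := ls) l
theorem PG.append {F G : List ℕ → List Bool} (hF : PG F) (hG : PG G) :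
    PG (fun env => F env ++ G env) := PF.comp PF.lappend (PF.pair hF hG)
theorem PG.cons {F : List ℕ → Bool} {G : List ℕ → List Bool} (hF : PB F) (hG : PG G) :
    PG (fun env => F env :: G env) := PF.comp PF.lcons (PF.pair hF hG)
theorem PG.ite {c : List ℕ → Bool} {F G : List ℕ → List Bool} (hc : PB c) (hF : PG F) (hG : PG G) :
    PG (fun env => if c env then F env else G env) := PF.cond hc hF hG
theorem PG.natCode {F : List ℕ → ℕ} (hF : PN F) : PG (fun env => Crest.Enc.natCode (F env)) :=
  PF.comp PF.natCode hF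
theorem PG.congr {F G : List ℕ → List Bool} (hF : PG F) (h : ∀ env, F env = G env) : PG G :=
  PF.congr hF h

/-! ### from the classes to `PolyTime` -/

theorem polyTime_of_PG {G : List ℕ → List Bool} (hG : PG G) :
    ∃ f : List Bool → List Bool, PolyTime f ∧
      ∀ n s : ℕ, f (List.replicate n true ++ false :: List.replicate s true) = G [n, s] := by
  obtain ⟨F, hF, hF'⟩ := hG
  obtain ⟨A, hA, hA'⟩ := (PF.comp PF.lappend (PF.pair (PF.id (ea := ls)) (PF.const (eb := ls) [false])) :
    PF ls ls _)
  refine ⟨_, PolyTime.comp hF hA, fun n s => ?_⟩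
  have h1 := hA' (List.replicate n true ++ false :: List.replicate s true)
  have h2 := hF' [n, s]
  have h3 : ue [n, s] = List.replicate n true ++ false :: List.replicate s true ++ [false] := by
    simp [un]
  have h4 : A (List.replicate n true ++ false :: List.replicate s true) = ue [n, s] := by
    rw [h3]; exact h1
  show F (A _) = _
  rw [h4, h2]
  rfl

theorem polyTime_of_PG_natCode {G : List ℕ → List Bool} (hG : PG G) :
    ∃ f : List Bool → List Bool, PolyTime f ∧
      ∀ p n s : ℕ, f (Crest.Enc.natCode p ++ List.replicate n true ++ false :: List.replicate s true) =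
        G [n, s] := by
  obtain ⟨f, hf, hf'⟩ := polyTime_of_PG hG
  refine ⟨_, PolyTime.comp hf (PolyTime.comp PolyTime.tail PolyTime.psnd), fun p n s => ?_⟩
  have : Crest.Enc.natCode p ++ List.replicate n true ++ false :: List.replicate s true =
      pr p.bits (false :: (List.replicate n true ++ false :: List.replicate s true)) := by
    simp [Crest.Enc.natCode, pr, List.flatMap]
  rw [this]
  show f (psnd (pr _ _)).tail = _
  rw [psnd_pr]
  exact hf' n s

end Crest.Agent.PT
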