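import Crest.Agent.Lib.PolyTime.Stub

/-!
# Typed layer on top of the polynomial time toolkit

`PF ea eb f` : some polynomial time function maps `ea a` to `eb (f a)` for every `a : α`.
-/

set_option autoImplicit false

namespace Crest.Agent.PT

open Crest.Complexity

/-- typed polynomial time -/
def PF {α β : Type*} (ea : α → List Bool) (eb : β → List Bool) (f : α → β) : Prop :=
  ∃ F, PolyTime F ∧ ∀ a, F (ea a) = eb (f a)

/-- code of pairs -/
def pe {α β : Type*} (ea : α → List Bool) (eb : β → List Bool) : α × β → List Bool :=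
  fun p => pr (ea p.1) (eb p.2)

/-- unary code -/
def un (n : ℕ) : List Bool := List.replicate n true

/-- binary code -/
def bn (n : ℕ) : List Bool := n.bits

/-- code of a bit -/
def bo (b : Bool) : List Bool := [b]

/-- identity code of bit lists -/
def ls (l : List Bool) : List Bool := l

@[simp] theorem un_length (n : ℕ) : (un n).length = n := by simp [un]
@[simp] theorem bo_length (b : Bool) : (bo b).length = 1 := rfl
@[simp] theorem ls_length (l : List Bool) : (ls l).length = l.length := rfl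
@[simp] theorem bn_length (n : ℕ) : (bn n).length = n.size := by
  rw [bn, Nat.size_eq_bits_len]
@[simp] theorem pe_length {α β : Type*} (ea : α → List Bool) (eb : β → List Bool) (p : α × β) :
    (pe ea eb p).length = 2 * (ea p.1).length + (eb p.2).length + 1 := by simp [pe]

section
variable {α β γ δ : Type*} {ea : α → List Bool} {eb : β → List Bool} {ec : γ → List Bool}
  {ed : δ → List Bool}

theorem PF.comp {g : β → γ} {f : α → β} (hg : PF eb ec g) (hf : PF ea eb f) :
    PF ea ec (fun a => g (f a)) := by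
  obtain ⟨F, hF, hF'⟩ := hf
  obtain ⟨G, hG, hG'⟩ := hg
  exact ⟨_, PolyTime.comp hG hF, fun a => by rw [hF', hG']⟩

theorem PF.congr {f g : α → β} (hf : PF ea eb f) (h : ∀ a, f a = g a) : PF ea eb g := by
  have : f = g := funext h
  rwa [← this]

theorem PF.id : PF ea ea (fun a => a) := ⟨_, PolyTime.id, fun _ => rfl⟩

theorem PF.const (b : β) : PF ea eb (fun _ => b) := ⟨_, PolyTime.const (eb b), fun _ => rfl⟩

theorem PF.pair {f : α → β} {g : α → γ} (hf : PF ea eb f) (hg : PF ea ec g) :
    PF ea (pe eb ec) (fun a => (f a, g a)) := by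
  obtain ⟨F, hF, hF'⟩ := hf
  obtain ⟨G, hG, hG'⟩ := hg
  exact ⟨_, PolyTime.pr hF hG, fun a => by rw [hF', hG']; rfl⟩

theorem PF.fst : PF (pe ea eb) ea Prod.fst := ⟨_, PolyTime.pfst, fun a => by simp [pe]⟩

theorem PF.snd : PF (pe ea eb) eb Prod.snd := ⟨_, PolyTime.psnd, fun a => by simp [pe]⟩

theorem PF.fst' {f : α → β × γ} (hf : PF ea (pe eb ec) f) : PF ea eb (fun a => (f a).1) :=
  PF.comp PF.fst hf

theorem PF.snd' {f : α → β × γ} (hf : PF ea (pe eb ec) f) : PF ea ec (fun a => (f a).2) :=
  PF.comp PF.snd hf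

/-- change of code -/
theorem PF.recode {f : α → β} {eb' : β → List Bool} (hf : PF ea eb f)
    (h : ∀ a, eb (f a) = eb' (f a)) : PF ea eb' f := by
  obtain ⟨F, hF, hF'⟩ := hf
  exact ⟨F, hF, fun a => by rw [hF', h]⟩

/-- polynomial output length -/
theorem PF.length_le {f : α → β} (hf : PF ea eb f) :
    ∃ q : Polynomial ℕ, ∀ a, (eb (f a)).length ≤ q.eval (ea a).length := by
  obtain ⟨F, hF, hF'⟩ := hf
  obtain ⟨q, hq⟩ := PolyTime.length_le hF
  exact ⟨q, fun a => by rw [← hF']; exact hq _⟩

/-- if-then-else on a bit -/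
theorem PF.cond {c : α → Bool} {f g : α → β} (hc : PF ea bo c) (hf : PF ea eb f) (hg : PF ea eb g) :
    PF ea eb (fun a => if c a then f a else g a) := by
  obtain ⟨C, hC, hC'⟩ := hc
  obtain ⟨F, hF, hF'⟩ := hf
  obtain ⟨G, hG, hG'⟩ := hg
  refine ⟨_, PolyTime.case hC hG hG hF, fun a => ?_⟩
  rw [hC', hF', hG']
  cases h : c a <;> simp [bo, h]

/-- bounded iteration -/
theorem PF.iter {init : α → β} {step : β → β} {n : α → ℕ} (hi : PF ea eb init) (hs : PF eb eb step)
    (hn : PF ea un n) (q : Polynomial ℕ)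
    (hb : ∀ a i, i ≤ n a → (eb (step^[i] (init a))).length ≤ q.eval (ea a).length) :
    PF ea eb (fun a => step^[n a] (init a)) := by
  obtain ⟨I, hI, hI'⟩ := hi
  obtain ⟨S, hS, hS'⟩ := hs
  obtain ⟨N, hN, hN'⟩ := hn
  obtain ⟨F, hF, hF'⟩ := PolyTime.iterPad hS q
  have key : ∀ b i, S^[i] (eb b) = eb (step^[i] b) := by
    intro b i
    induction i generalizing b with
    | zero => rfl
    | succ i ih => rw [Function.iterate_succ_apply, Function.iterate_succ_apply, hS', ih]
  refine ⟨_, PolyTime.comp hF (PolyTime.pr PolyTime.id (PolyTime.pr hN hI)), fun a => ?_⟩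
  show F (pr (ea a) (pr (N (ea a)) (I (ea a)))) = _
  rw [hN', hI', hF', un_length, key]
  intro i hi
  rw [un_length] at hi
  rw [key]
  exact hb a i hi

end

end Crest.Agent.PT
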