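import Crest.Agent.Lib.PolyTime.PFEnv

/-!
# The classes `PU`, `PN`, `PB`, `PG` of polynomial time functions of a list of (unary) numbers
`PU` : unary value, `PN` : binary value, `PB` : boolean value, `PG` : value a list of bits,
`PE` : value an environment.
-/

set_option autoImplicit false

namespace Crest.Agent.PT

open Crest.Complexity

/-- unary valued -/
def PU (F : List ℕ → ℕ) : Prop := PF ue un F
/-- binary valued -/
def PN (F : List ℕ → ℕ) : Prop := PF ue bn F
/-- boolean valued -/
def PB (F : List ℕ → Bool) : Prop := PF ue bo F
/-- list valued -/
def PG (F : List ℕ → List Bool) : Prop := PF ue ls F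
/-- environment valued -/
def PE (F : List ℕ → List ℕ) : Prop := PF ue ue F

end Crest.Agent.PT
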