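import Crest.Agent.Lib.PolyTime.PFUn

/-!
# Environments: lists of natural numbers, each coded in unary
-/

set_option autoImplicit false

namespace Crest.Agent.PT

open Crest.Complexity

/-- code of a list of natural numbers, each in unary, terminated by `false` -/
def ue (env : List ℕ) : List Bool := env.flatMap (fun x => un x ++ [false])

@[simp] theorem ue_nil : ue [] = [] := rfl

@[simp] theorem ue_cons (x : ℕ) (env : List ℕ) : ue (x :: env) = un x ++ false :: ue env := by
  simp [ue]

theorem ue_length (env : List ℕ) : (ue env).length = env.sum + env.length := by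
  induction env with
  | nil => rfl
  | cons x env ih => simp [ih]; omega

theorem PF.ue_cons : PF (pe un ue) ue (fun p => p.1 :: p.2) := by
  have h1 : PF un ls un := ⟨_, PolyTime.id, fun _ => rfl⟩
  have h2 : PF ue ls (fun env => false :: ue env) := ⟨_, PolyTime.cons false, fun _ => rfl⟩
  have h : PF (pe un ue) ls (fun p : ℕ × List ℕ => un p.1 ++ false :: ue p.2) :=
    PF.comp (g := fun p : List Bool × List Bool => p.1 ++ p.2)
      (f := fun p : ℕ × List ℕ => (un p.1, false :: ue p.2)) PF.lappend
      (PF.pair (PF.comp h1 PF.fst)
        (PF.comp (g := fun env : List ℕ => false :: ue env) h2 PF.snd))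
  obtain ⟨F, hF, hF'⟩ := h
  exact ⟨F, hF, fun a => by rw [hF', PT.ue_cons]; rfl⟩

/-- step of the scan computing the head -/
def headStep (s : Bool × ℕ) (b : Bool) : Bool × ℕ :=
  if s.1 then s else if b then (false, s.2 + 1) else (true, s.2)

theorem headStep_true (l : List Bool) (r : ℕ) : l.foldl headStep (true, r) = (true, r) := by
  induction l with
  | nil => rfl
  | cons b l ih => rw [List.foldl_cons]; exact ih

theorem headStep_le (l : List Bool) (s : Bool × ℕ) : (l.foldl headStep s).2 ≤ s.2 + l.length := by
  induction l generalizing s with
  | nil => simp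
  | cons b l ih =>
    rw [List.foldl_cons, List.length_cons]
    refine le_trans (ih _) ?_
    have : (headStep s b).2 ≤ s.2 + 1 := by
      unfold headStep; split_ifs <;> simp
    omega

theorem headStep_un (x r : ℕ) (l : List Bool) :
    (un x ++ false :: l).foldl headStep (false, r) = (true, r + x) := by
  induction x generalizing r with
  | zero =>
    simp only [un, List.replicate_zero, List.nil_append, List.foldl_cons]
    exact headStep_true l r
  | succ x ih =>
    simp only [un, List.replicate_succ, List.cons_append, List.foldl_cons]
    have := ih (r + 1)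
    rw [un] at this
    have e : headStep (false, r) true = (false, r + 1) := rfl
    rw [e, this]
    congr 1; omega

/-- step of the scan computing the tail -/
def tailStep (s : Bool × List Bool) (b : Bool) : Bool × List Bool :=
  if s.1 then s else if b then (false, s.2.tail) else (true, s.2.tail)

theorem tailStep_true (l r : List Bool) : l.foldl tailStep (true, r) = (true, r) := by
  induction l with
  | nil => rfl
  | cons b l ih => rw [List.foldl_cons]; exact ih

theorem tailStep_le (l : List Bool) (s : Bool × List Bool) :
    (l.foldl tailStep s).2.length ≤ s.2.length := by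
  induction l generalizing s with
  | nil => simp
  | cons b l ih =>
    rw [List.foldl_cons]
    refine le_trans (ih _) ?_
    unfold tailStep; split_ifs <;> simp

theorem tailStep_un (x : ℕ) (l : List Bool) :
    (un x ++ false :: l).foldl tailStep (false, un x ++ false :: l) = (true, l) := by
  induction x with
  | zero =>
    simp only [un, List.replicate_zero, List.nil_append, List.foldl_cons]
    exact tailStep_true l l
  | succ x ih =>
    simp only [un, List.replicate_succ, List.cons_append, List.foldl_cons]
    rw [un] at ih
    exact ih

/-- Proof: `PF.foldl` over the code, state `(done, r)` -/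
theorem PF.ue_head : PF ue un (fun env => env.headD 0) := by
  have hsucc : PF un un (fun i => i + 1) :=
    ⟨_, PolyTime.cons true, fun a => by simp only [un, List.replicate_succ]⟩
  have hl : PF ue ls ue := ⟨_, PolyTime.id, fun _ => rfl⟩
  have hs : PF (pe ue (pe bo (pe bo un))) (pe bo un)
      (fun p : List ℕ × Bool × (Bool × ℕ) => headStep p.2.2 p.2.1) := by
    refine (PF.cond (c := fun p : List ℕ × Bool × (Bool × ℕ) => p.2.2.1)
      (f := fun p => p.2.2) (g := fun p => if p.2.1 then (false, p.2.2.2 + 1) else (true, p.2.2.2))
      (PF.fst' (PF.snd' PF.snd)) (PF.snd' PF.snd) ?_).congr (fun _ => rfl)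
    refine PF.cond (c := fun p : List ℕ × Bool × (Bool × ℕ) => p.2.1) (PF.fst' PF.snd) ?_ ?_
    · exact PF.pair (PF.const false)
        (PF.comp (g := fun i : ℕ => i + 1) hsucc (PF.snd' (PF.snd' PF.snd)))
    · exact PF.pair (PF.const true) (PF.snd' (PF.snd' PF.snd))
  have h := PF.foldl (f := fun (_ : List ℕ) => headStep) (init := fun _ => (false, 0)) hl
    (PF.const ((false, 0) : Bool × ℕ)) hs (Polynomial.X + 3) (by
      intro c l₁ l₂ hc
      rw [pe_length, bo_length, un_length]
      have h1 := headStep_le l₁ (false, 0)
      have h2 : (ue c).length = l₁.length + l₂.length := by rw [hc, List.length_append]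
      simp only [Polynomial.eval_add, Polynomial.eval_X, Polynomial.eval_ofNat]
      simp only at h1
      omega)
  refine PF.congr (PF.snd' h) (fun env => ?_)
  cases env with
  | nil => rfl
  | cons x env =>
    rw [PT.ue_cons, headStep_un]
    simp

/-- Proof: iterate on the state `(done, l)` -/
theorem PF.ue_tail : PF ue ue List.tail := by
  have hl : PF ue ls ue := ⟨_, PolyTime.id, fun _ => rfl⟩
  have hs : PF (pe ue (pe bo (pe bo ls))) (pe bo ls)
      (fun p : List ℕ × Bool × (Bool × List Bool) => tailStep p.2.2 p.2.1) := by
    refine (PF.cond (c := fun p : List ℕ × Bool × (Bool × List Bool) => p.2.2.1)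
      (f := fun p => p.2.2)
      (g := fun p => if p.2.1 then (false, p.2.2.2.tail) else (true, p.2.2.2.tail))
      (PF.fst' (PF.snd' PF.snd)) (PF.snd' PF.snd) ?_).congr (fun _ => rfl)
    refine PF.cond (c := fun p : List ℕ × Bool × (Bool × List Bool) => p.2.1) (PF.fst' PF.snd) ?_ ?_
    · exact PF.pair (PF.const false) (PF.comp PF.ltail (PF.snd' (PF.snd' PF.snd)))
    · exact PF.pair (PF.const true) (PF.comp PF.ltail (PF.snd' (PF.snd' PF.snd)))
  have h := PF.foldl (f := fun (_ : List ℕ) => tailStep) (init := fun env => (false, ue env)) hl
    (PF.pair (PF.const false) hl) hs (Polynomial.X + 3) (by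
      intro c l₁ l₂ hc
      rw [pe_length, bo_length, ls_length]
      have h1 := tailStep_le l₁ (false, ue c)
      simp only [Polynomial.eval_add, Polynomial.eval_X, Polynomial.eval_ofNat]
      simp only at h1
      omega)
  obtain ⟨F, hF, hF'⟩ := PF.snd' h
  refine ⟨F, hF, fun env => ?_⟩
  rw [hF']
  cases env with
  | nil => rfl
  | cons x env =>
    show ((ue (x :: env)).foldl tailStep (false, ue (x :: env))).2 = ue env
    rw [PT.ue_cons, tailStep_un]

theorem PF.ue_get (i : ℕ) : PF ue un (fun env => env.getD i 0) := by
  induction i with
  | zero => exact PF.ue_head.congr (fun env => by cases env <;> rfl)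
  | succ i ih =>
    exact (PF.comp (g := fun env : List ℕ => env.getD i 0) ih PF.ue_tail).congr
      (fun env => by cases env <;> simp)

end Crest.Agent.PT
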