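import Crest.Agent.Lib.PolyTime.PFAdd

/-!
# Typed layer: binary multiplication, conversions, `natCode`
-/

set_option autoImplicit false

namespace Crest.Agent.PT

open Crest.Complexity

namespace MulAux

theorem msb_bits (n : ℕ) : n.bits.reverse.foldl (fun v b => Nat.bit b v) 0 = n := by
  rw [List.foldl_reverse]
  induction n using Nat.binaryRec' with
  | zero => simp
  | bit b n h ih =>
    rw [Nat.bits_append_bit n b h]
    simp only [List.foldr_cons]
    rw [ih]

theorem horner (x : ℕ) (l : List Bool) (v : ℕ) :
    l.foldl (fun s b => Nat.bit false s + (if b = true then x else 0)) (x * v)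
      = x * l.foldl (fun v b => Nat.bit b v) v := by
  induction l generalizing v with
  | nil => rfl
  | cons b l ih =>
    simp only [List.foldl_cons]
    rw [← ih]
    congr 1
    cases b <;> simp [Nat.bit_val] <;> ring

theorem foldl_lt (l : List Bool) (v k : ℕ) (hv : v < 2 ^ k) :
    l.foldl (fun v b => Nat.bit b v) v < 2 ^ (k + l.length) := by
  induction l generalizing v k with
  | nil => simpa using hv
  | cons b l ih =>
    simp only [List.foldl_cons, List.length_cons]
    have : Nat.bit b v < 2 ^ (k + 1) := by
      rw [pow_succ]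
      cases b <;> simp [Nat.bit_val] <;> omega
    have h := ih _ _ this
    rwa [show k + 1 + l.length = k + (l.length + 1) by ring] at h

end MulAux

open MulAux

/-- Horner over the bits of `p.2`, most significant first (`PF.foldl` on `p.2.bits.reverse`):
`v ↦ 2 v + (if b then p.1 else 0)` -/
theorem PF.bn_mul : PF (pe bn bn) bn (fun p => p.1 * p.2) := by
  have hl : PF (pe bn bn) ls (fun p : ℕ × ℕ => p.2.bits.reverse) :=
    PF.comp PF.lreverse (PF.comp PF.bn_ls PF.snd)
  have hf : PF (pe (pe bn bn) (pe bo bn)) bn
      (fun p : (ℕ × ℕ) × (Bool × ℕ) => Nat.bit false p.2.2 + (if p.2.1 = true then p.1.1 else 0)) := by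
    have h1 : PF (pe (pe bn bn) (pe bo bn)) bn (fun p : (ℕ × ℕ) × (Bool × ℕ) => Nat.bit false p.2.2) :=
      PF.comp (f := fun p : (ℕ × ℕ) × (Bool × ℕ) => (false, p.2.2)) PF.bn_bit
        (PF.pair (PF.const false) (PF.snd' PF.snd))
    have h2 : PF (pe (pe bn bn) (pe bo bn)) bn
        (fun p : (ℕ × ℕ) × (Bool × ℕ) => if p.2.1 = true then p.1.1 else 0) :=
      PF.cond (PF.fst' PF.snd) (PF.fst' PF.fst) (PF.const 0)
    exact PF.comp (f := fun p : (ℕ × ℕ) × (Bool × ℕ) =>
      (Nat.bit false p.2.2, if p.2.1 = true then p.1.1 else 0)) PF.bn_add (PF.pair h1 h2)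
  have key := PF.foldl (ec := pe bn bn) (es := bn) (l := fun p : ℕ × ℕ => p.2.bits.reverse)
    (init := fun _ => 0)
    (f := fun p s b => Nat.bit false s + (if b = true then p.1 else 0)) hl (PF.const 0) hf
    Polynomial.X ?_
  · refine key.congr fun p => ?_
    have h := horner p.1 p.2.bits.reverse 0
    rw [mul_zero, msb_bits] at h
    exact h
  · intro p l₁ l₂ h
    have h1 := horner p.1 l₁ 0
    rw [mul_zero] at h1
    rw [h1, bn_length, Polynomial.eval_X, pe_length, bn_length, bn_length]
    have hlen : l₁.length ≤ p.2.size := by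
      have := congrArg List.length h
      rw [List.length_reverse, List.length_append, Nat.size_eq_bits_len] at this
      omega
    rw [Nat.size_le]
    rcases Nat.eq_zero_or_pos p.1 with h0 | h0
    · rw [h0, zero_mul]; positivity
    · calc p.1 * l₁.foldl (fun v b => Nat.bit b v) 0
          < 2 ^ p.1.size * 2 ^ (0 + l₁.length) := by
            apply Nat.mul_lt_mul'' (Nat.lt_size_self _)
            exact foldl_lt l₁ 0 0 (by norm_num)
        _ ≤ 2 ^ (2 * p.1.size + p.2.size + 1) := by
            rw [← pow_add]
            apply Nat.pow_le_pow_right (by norm_num)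
            omega

/-- unary to binary -/
theorem PF.un_bn : PF un bn (fun n => n) := by
  have hf : PF (pe un (pe un bn)) bn (fun p : ℕ × (ℕ × ℕ) => p.2.2 + 1) :=
    PF.comp (f := fun p : ℕ × (ℕ × ℕ) => (p.2.2, 1)) PF.bn_add (PF.pair (PF.snd' PF.snd) (PF.const 1))
  have hrec : ∀ n, nrec 0 (fun _ s => s + 1) n = n := by
    intro n
    induction n with
    | zero => rfl
    | succ n ih => simp only [nrec]; rw [ih]
  have key := PF.natrec (ec := un) (es := bn) (n := fun n => n) (init := fun _ => 0)
    (f := fun _ _ s => s + 1) PF.id (PF.const 0) hf Polynomial.X ?_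
  · exact key.congr hrec
  · intro c i hi
    rw [hrec, bn_length, Polynomial.eval_X, un_length, Nat.size_le]
    exact lt_of_le_of_lt hi Nat.lt_two_pow_self

/-- successor in unary -/
theorem PF.un_succ : PF un un (fun n => n + 1) := by
  obtain ⟨F, hF, hF'⟩ := PF.comp (f := fun n : ℕ => (true, un n)) (g := fun p : Bool × List Bool => p.1 :: p.2)
    (ea := un) PF.lcons (PF.pair (PF.const true) (⟨_, PolyTime.id, fun _ => rfl⟩ : PF un ls un))
  exact ⟨F, hF, fun a => by rw [hF' a]; simp [ls, un, List.replicate_succ]⟩

/-- binary to unary, bounded by a unary number (Horner with values truncated at the bound, or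
iterate `p.1` times: if `x = 0` stop, else `x - 1, r + 1`) -/
theorem PF.bn_un_min : PF (pe un bn) un (fun p => min p.1 p.2) := by
  have hs : PF (pe bn un) (pe bn un)
      (fun p : ℕ × ℕ => if decide (p.1 = 0) then p else (p.1 - 1, p.2 + 1)) := by
    refine PF.cond (PF.comp PF.bn_isZero PF.fst) PF.id (PF.pair ?_ ?_)
    · exact PF.comp (f := fun p : ℕ × ℕ => (p.1, 1)) PF.bn_sub (PF.pair PF.fst (PF.const 1))
    · exact PF.comp PF.un_succ PF.snd
  have hit : ∀ (x k : ℕ), (fun p : ℕ × ℕ => if decide (p.1 = 0) then p else (p.1 - 1, p.2 + 1))^[k] (x, 0)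
      = (x - k, min k x) := by
    intro x k
    induction k with
    | zero => simp
    | succ k ih =>
      rw [Function.iterate_succ_apply', ih]
      by_cases h : x - k = 0
      · simp only [h, decide_true, if_true]
        ext <;> simp <;> omega
      · simp only [h, decide_false, if_false, Bool.false_eq_true]
        ext <;> simp <;> omega
  have key := PF.iter (ea := pe un bn) (eb := pe bn un) (init := fun p : ℕ × ℕ => (p.2, 0))
    (step := fun p : ℕ × ℕ => if decide (p.1 = 0) then p else (p.1 - 1, p.2 + 1)) (n := fun p => p.1)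
    (PF.pair PF.snd (PF.const 0)) hs PF.fst (Polynomial.C 4 * Polynomial.X) ?_
  · refine (PF.snd' key).congr fun p => ?_
    rw [hit]
  · intro p i hi
    rw [hit, pe_length, pe_length, bn_length, un_length, un_length, bn_length]
    simp only [Polynomial.eval_mul, Polynomial.eval_C, Polynomial.eval_X]
    have h1 : (p.2 - i).size ≤ p.2.size := Nat.size_le_size (Nat.sub_le _ _)
    have h2 : min i p.2 ≤ p.1 := (min_le_left _ _).trans hi
    omega

theorem PF.natCode : PF bn ls Crest.Enc.natCode := by
  refine ⟨_, PolyTime.pr PolyTime.id (PolyTime.const [false]), fun n => ?_⟩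
  simp only [pr, ls, bn, Crest.Enc.natCode, List.flatMap]

end Crest.Agent.PT
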