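import Crest.Agent.Lib.PolyTime.PFCore

/-!
# Typed layer: primitive recursion on unary numbers and `foldl`
-/

set_option autoImplicit false

namespace Crest.Agent.PT

open Crest.Complexity

/-- primitive recursion with a plain (non dependent) type -/
def nrec {σ : Type*} (s : σ) (f : ℕ → σ → σ) : ℕ → σ
  | 0 => s
  | n + 1 => f n (nrec s f n)

section
variable {γ σ : Type*} {ec : γ → List Bool} {es : σ → List Bool}

/-- bounded primitive recursion. Proof: `PF.iter` on the state `(c, i, s)`, step `(c, i+1, f c i s)`. -/
theorem PF.natrec {n : γ → ℕ} {init : γ → σ} {f : γ → ℕ → σ → σ}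
    (hn : PF ec un n) (hi : PF ec es init)
    (hf : PF (pe ec (pe un es)) es (fun p => f p.1 p.2.1 p.2.2)) (q : Polynomial ℕ)
    (hb : ∀ c i, i ≤ n c → (es (nrec (init c) (f c) i)).length ≤ q.eval (ec c).length) :
    PF ec es (fun c => nrec (init c) (f c) (n c)) := by
  obtain ⟨qn, hqn⟩ := PF.length_le hn
  have hsucc : PF un un (fun i => i + 1) :=
    ⟨_, PolyTime.cons true, fun a => by simp only [un, List.replicate_succ]⟩
  have hstep : PF (pe ec (pe un es)) (pe ec (pe un es))
      (fun p : γ × ℕ × σ => (p.1, p.2.1 + 1, f p.1 p.2.1 p.2.2)) := by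
    refine PF.pair (g := fun p : γ × ℕ × σ => (p.2.1 + 1, f p.1 p.2.1 p.2.2)) PF.fst (PF.pair ?_ hf)
    exact PF.comp (g := fun i : ℕ => i + 1) hsucc (PF.fst' PF.snd)
  have hinit : PF ec (pe ec (pe un es)) (fun c => (c, (0 : ℕ), init c)) :=
    PF.pair (g := fun c => ((0 : ℕ), init c)) PF.id (PF.pair (PF.const 0) hi)
  have key : ∀ c i, (fun p : γ × ℕ × σ => (p.1, p.2.1 + 1, f p.1 p.2.1 p.2.2))^[i] (c, 0, init c)
      = (c, i, nrec (init c) (f c) i) := by
    intro c i
    induction i with
    | zero => rfl
    | succ i ih => rw [Function.iterate_succ_apply', ih]; rfl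
  have hmain := PF.iter hinit hstep hn (2 * Polynomial.X + 2 * qn + q + 2) (by
    intro c i hi
    rw [key, pe_length, pe_length, un_length]
    have h1 := hqn c
    rw [un_length] at h1
    have h2 := hb c i hi
    simp only [Polynomial.eval_add, Polynomial.eval_mul, Polynomial.eval_X, Polynomial.eval_ofNat]
    omega)
  refine PF.congr (PF.snd' (PF.snd' hmain)) (fun c => ?_)
  rw [key]

/-- bounded left fold over a list of bits. Proof: `PF.iter` on the state `(c, l, s)`, number of steps
`= |l|` (unary length of the list), step: `(c, [], s) ↦ (c, [], s)`, `(c, b :: l, s) ↦ (c, l, f c s b)`. -/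
theorem PF.foldl {l : γ → List Bool} {init : γ → σ} {f : γ → σ → Bool → σ}
    (hl : PF ec ls l) (hi : PF ec es init)
    (hf : PF (pe ec (pe bo es)) es (fun p => f p.1 p.2.2 p.2.1)) (q : Polynomial ℕ)
    (hb : ∀ c l₁ l₂, l c = l₁ ++ l₂ → (es (l₁.foldl (f c) (init c))).length ≤ q.eval (ec c).length) :
    PF ec es (fun c => (l c).foldl (f c) (init c)) := by
  have hempty : PF ls bo List.isEmpty := by
    refine ⟨_, PolyTime.case PolyTime.id (PolyTime.const [true]) (PolyTime.const [false])
      (PolyTime.const [false]), fun a => ?_⟩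
    rcases a with _ | ⟨_ | _, a⟩ <;> rfl
  have hhead : PF ls bo (fun l => l.headD false) := by
    refine ⟨_, PolyTime.case PolyTime.id (PolyTime.const [false]) (PolyTime.const [false])
      (PolyTime.const [true]), fun a => ?_⟩
    rcases a with _ | ⟨_ | _, a⟩ <;> rfl
  have htail : PF ls ls List.tail := ⟨_, PolyTime.tail, fun _ => rfl⟩
  have hlen : PF ls un List.length := by
    obtain ⟨F, hF, hF'⟩ := PolyTime.iterPad (PolyTime.cons true) Polynomial.X
    have hrep : ∀ i : ℕ, (fun x : List Bool => true :: x)^[i] [] = List.replicate i true := by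
      intro i
      induction i with
      | zero => rfl
      | succ i ih => rw [Function.iterate_succ_apply', ih, List.replicate_succ]
    refine ⟨_, PolyTime.comp hF (PolyTime.pr PolyTime.id (PolyTime.pr PolyTime.id
      (PolyTime.const []))), fun a => ?_⟩
    show F (pr (ls a) (pr (ls a) [])) = _
    rw [hF', hrep]
    · rfl
    · intro i hi
      rw [hrep, List.length_replicate, Polynomial.eval_X]
      exact hi
  obtain ⟨ql, hql⟩ := PF.length_le hl
  have hstep : PF (pe ec (pe ls es)) (pe ec (pe ls es))
      (fun p : γ × List Bool × σ => if p.2.1.isEmpty then p else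
        (p.1, p.2.1.tail, f p.1 p.2.2 (p.2.1.headD false))) := by
    refine PF.cond (c := fun p : γ × List Bool × σ => p.2.1.isEmpty)
      (PF.comp hempty (PF.fst' PF.snd)) PF.id ?_
    refine PF.pair (g := fun p : γ × List Bool × σ => (p.2.1.tail, f p.1 p.2.2 (p.2.1.headD false)))
      PF.fst (PF.pair (PF.comp htail (PF.fst' PF.snd)) ?_)
    exact PF.comp (g := fun p : γ × Bool × σ => f p.1 p.2.2 p.2.1)
      (f := fun p : γ × List Bool × σ => (p.1, p.2.1.headD false, p.2.2)) hf
      (PF.pair (g := fun p : γ × List Bool × σ => (p.2.1.headD false, p.2.2)) PF.fst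
        (PF.pair (PF.comp hhead (PF.fst' PF.snd)) (PF.snd' PF.snd)))
  have hinit : PF ec (pe ec (pe ls es)) (fun c => (c, l c, init c)) :=
    PF.pair (g := fun c => (l c, init c)) PF.id (PF.pair hl hi)
  have key : ∀ c i, i ≤ (l c).length →
      (fun p : γ × List Bool × σ => if p.2.1.isEmpty then p else
        (p.1, p.2.1.tail, f p.1 p.2.2 (p.2.1.headD false)))^[i] (c, l c, init c)
      = (c, (l c).drop i, ((l c).take i).foldl (f c) (init c)) := by
    intro c i
    induction i with
    | zero => intro _; simp
    | succ i ih =>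
      intro hi
      rw [Function.iterate_succ_apply', ih (by omega)]
      have hlt : i < (l c).length := by omega
      have e1 : (l c).drop i = (l c)[i] :: (l c).drop (i + 1) := List.drop_eq_getElem_cons hlt
      have e2 : (l c).take (i + 1) = (l c).take i ++ [(l c)[i]] := by
        rw [List.take_add_one, List.getElem?_eq_getElem hlt]; rfl
      rw [e1, e2, List.foldl_append]
      rfl
  have hmain := PF.iter hinit hstep (PF.comp hlen hl) (2 * Polynomial.X + 2 * ql + q + 2) (by
    intro c i hi
    rw [key c i hi, pe_length, pe_length, ls_length, List.length_drop]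
    have h1 := hql c
    rw [ls_length] at h1
    have h2 := hb c ((l c).take i) ((l c).drop i) (List.take_append_drop i (l c)).symm
    simp only [Polynomial.eval_add, Polynomial.eval_mul, Polynomial.eval_X, Polynomial.eval_ofNat]
    omega)
  refine PF.congr (PF.snd' (PF.snd' hmain)) (fun c => ?_)
  rw [key c _ le_rfl, List.take_length]

end

end Crest.Agent.PT
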