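import Crest.Agent.Lib.PolyTime.PFRec
import Crest.Agent.Lib.PolyTime.PFDefs

/-!
# Sums and products over ranges
-/

set_option autoImplicit false

namespace Crest.Agent.PT

open Crest.Complexity

namespace PFSum_aux

theorem nrec_sum (g : ℕ → ℕ) (n : ℕ) :
    nrec 0 (fun i s => s + g i) n = ∑ i ∈ Finset.range n, g i := by
  induction n with
  | zero => rfl
  | succ n ih =>
    rw [Finset.sum_range_succ, ← ih]
    rfl

theorem nrec_prod (g : ℕ → ℕ) (n : ℕ) :
    nrec 1 (fun i s => s * g i) n = ∏ i ∈ Finset.range n, g i := by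
  induction n with
  | zero => rfl
  | succ n ih =>
    rw [Finset.prod_range_succ, ← ih]
    rfl

/-- the length of the value at `i :: env`, `i < b env` -/
theorem val_length {eb : ℕ → List Bool} {b F : List ℕ → ℕ} (hb : PU b) (hF : PF ue eb F) :
    ∃ qb Q : Polynomial ℕ, (∀ env, b env ≤ qb.eval (ue env).length) ∧
      ∀ env i, i < b env → (eb (F (i :: env))).length ≤ Q.eval (ue env).length := by
  obtain ⟨qb, hqb⟩ := PF.length_le hb
  obtain ⟨q, hq⟩ := PF.length_le hF
  simp only [un_length] at hqb
  refine ⟨qb, q.comp (qb + Polynomial.X + 1), hqb, fun env i hi => (hq _).trans ?_⟩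
  rw [Polynomial.eval_comp]
  refine eval_mono q ?_
  have h1 := hqb env
  rw [ue_cons, List.length_append, List.length_cons, un_length]
  simp only [Polynomial.eval_add, Polynomial.eval_X, Polynomial.eval_one]
  omega

/-- code of the step -/
theorem step_pf {es : ℕ → List Bool} {F : List ℕ → ℕ} (hF : PF ue es F) (op : ℕ → ℕ → ℕ)
    (hop : PF (pe es es) es (fun p => op p.1 p.2)) :
    PF (pe ue (pe un es)) es
      (fun p : List ℕ × ℕ × ℕ => op p.2.2 (F (p.2.1 :: p.1))) := by
  have h1 : PF (pe ue (pe un es)) es (fun p : List ℕ × ℕ × ℕ => p.2.2) := PF.snd' PF.snd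
  have h2 : PF (pe ue (pe un es)) un (fun p : List ℕ × ℕ × ℕ => p.2.1) := PF.fst' PF.snd
  have h3 : PF (pe ue (pe un es)) ue (fun p : List ℕ × ℕ × ℕ => p.2.1 :: p.1) :=
    PF.comp (g := fun p : ℕ × List ℕ => p.1 :: p.2)
      (f := fun p : List ℕ × ℕ × ℕ => (p.2.1, p.1)) PF.ue_cons (PF.pair h2 PF.fst)
  exact PF.comp hop (PF.pair h1 (PF.comp hF h3))

end PFSum_aux

open PFSum_aux

/-- `PF.natrec` with state `ℕ` in binary; every term is `< 2 ^ q |ue (i :: env)|`, so the partial sums
have size `≤ b + q(..)` -/
theorem PN.sum {b F : List ℕ → ℕ} (hb : PU b) (hF : PN F) :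
    PN (fun env => ∑ i ∈ Finset.range (b env), F (i :: env)) := by
  obtain ⟨qb, Q, hqb, hQ⟩ := val_length hb hF
  have h := PF.natrec (ec := ue) (es := bn) (n := b) (init := fun _ => 0)
    (f := fun env i s => s + F (i :: env)) hb (PF.const 0)
    (step_pf hF (fun x y => x + y) PF.bn_add) (qb + Q) (fun env i hi => by
      rw [nrec_sum, bn_length, Polynomial.eval_add, Nat.size_le]
      have h1 : ∑ j ∈ Finset.range i, F (j :: env) ≤ i * 2 ^ Q.eval (ue env).length := by
        calc ∑ j ∈ Finset.range i, F (j :: env)
            ≤ ∑ _j ∈ Finset.range i, 2 ^ Q.eval (ue env).length := by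
              refine Finset.sum_le_sum fun j hj => ?_
              have h2 := hQ env j ((Finset.mem_range.1 hj).trans_le hi)
              rw [bn_length, Nat.size_le] at h2
              exact h2.le
          _ = _ := by rw [Finset.sum_const, Finset.card_range, smul_eq_mul]
      have h2 : i < 2 ^ qb.eval (ue env).length :=
        (Nat.lt_two_pow_self).trans_le
          (Nat.pow_le_pow_right (by norm_num) (hi.trans (hqb env)))
      calc _ ≤ i * 2 ^ Q.eval (ue env).length := h1
        _ < 2 ^ qb.eval (ue env).length * 2 ^ Q.eval (ue env).length :=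
            Nat.mul_lt_mul_of_pos_right h2 (by positivity)
        _ = _ := (pow_add _ _ _).symm)
  exact PF.congr h fun env => nrec_sum _ _

/-- `PF.natrec` with state `ℕ` in binary; the partial products have size `≤ 1 + b * q(..)` -/
theorem PN.prod {b F : List ℕ → ℕ} (hb : PU b) (hF : PN F) :
    PN (fun env => ∏ i ∈ Finset.range (b env), F (i :: env)) := by
  obtain ⟨qb, Q, hqb, hQ⟩ := val_length hb hF
  have h := PF.natrec (ec := ue) (es := bn) (n := b) (init := fun _ => 1)
    (f := fun env i s => s * F (i :: env)) hb (PF.const 1)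
    (step_pf hF (fun x y => x * y) PF.bn_mul) (1 + qb * Q) (fun env i hi => by
      rw [nrec_prod, bn_length, Nat.size_le]
      have h1 : ∏ j ∈ Finset.range i, F (j :: env) ≤ (2 ^ Q.eval (ue env).length) ^ i := by
        calc ∏ j ∈ Finset.range i, F (j :: env)
            ≤ ∏ _j ∈ Finset.range i, 2 ^ Q.eval (ue env).length := by
              refine Finset.prod_le_prod' fun j hj => ?_
              have h2 := hQ env j ((Finset.mem_range.1 hj).trans_le hi)
              rw [bn_length, Nat.size_le] at h2
              exact h2.le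
          _ = _ := by rw [Finset.prod_const, Finset.card_range]
      simp only [Polynomial.eval_add, Polynomial.eval_mul, Polynomial.eval_one]
      calc _ ≤ (2 ^ Q.eval (ue env).length) ^ i := h1
        _ = 2 ^ (i * Q.eval (ue env).length) := by rw [← pow_mul, mul_comm]
        _ ≤ 2 ^ (qb.eval (ue env).length * Q.eval (ue env).length) :=
            Nat.pow_le_pow_right (by norm_num) (Nat.mul_le_mul_right _ (hi.trans (hqb env)))
        _ < _ := Nat.pow_lt_pow_right (by norm_num) (by omega))
  exact PF.congr h fun env => nrec_prod _ _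

theorem PU.sum {b F : List ℕ → ℕ} (hb : PU b) (hF : PU F) :
    PU (fun env => ∑ i ∈ Finset.range (b env), F (i :: env)) := by
  obtain ⟨qb, Q, hqb, hQ⟩ := val_length hb hF
  have h := PF.natrec (ec := ue) (es := un) (n := b) (init := fun _ => 0)
    (f := fun env i s => s + F (i :: env)) hb (PF.const 0)
    (step_pf hF (fun x y => x + y) PF.un_add) (qb * Q) (fun env i hi => by
      rw [nrec_sum, un_length, Polynomial.eval_mul]
      calc ∑ j ∈ Finset.range i, F (j :: env)
          ≤ ∑ _j ∈ Finset.range i, Q.eval (ue env).length := by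
            refine Finset.sum_le_sum fun j hj => ?_
            have h2 := hQ env j ((Finset.mem_range.1 hj).trans_le hi)
            rwa [un_length] at h2
        _ = i * Q.eval (ue env).length := by
            rw [Finset.sum_const, Finset.card_range, smul_eq_mul]
        _ ≤ _ := Nat.mul_le_mul_right _ (hi.trans (hqb env)))
  exact PF.congr h fun env => nrec_sum _ _

end Crest.Agent.PT
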