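import Crest.Agent.Lib.PolyTime.PFMul

/-!
# Typed layer: unary arithmetic
-/

set_option autoImplicit false

namespace Crest.Agent.PT

open Crest.Complexity

theorem PF.un_ls : PF un ls un := ⟨_, PolyTime.id, fun _ => rfl⟩

theorem PF.un_add : PF (pe un un) un (fun p => p.1 + p.2) := by
  refine ⟨_, PolyTime.append, fun p => ?_⟩
  rw [pe, pfst_pr, psnd_pr, un, un, un, List.replicate_append_replicate]

theorem PF.un_pred : PF un un Nat.pred := by
  refine ⟨_, PolyTime.tail, fun n => ?_⟩
  rw [un, un, List.tail_replicate]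
  rfl

theorem PF.un_isZero : PF un bo (fun n => decide (n = 0)) := by
  refine ⟨_, PolyTime.case PolyTime.id (PolyTime.const [true]) (PolyTime.const [false])
    (PolyTime.const [false]), fun n => ?_⟩
  cases n with
  | zero => rfl
  | succ n => rfl

theorem un_pred_iterate (i a : ℕ) : Nat.pred^[i] a = a - i := by
  induction i generalizing a with
  | zero => rfl
  | succ i ih =>
    rw [Function.iterate_succ_apply, ih, Nat.pred_eq_sub_one]
    omega

theorem PF.un_sub : PF (pe un un) un (fun p => p.1 - p.2) := by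
  refine PF.congr (PF.iter (ea := pe un un) (eb := un) (init := fun p : ℕ × ℕ => p.1)
    (n := fun p : ℕ × ℕ => p.2) PF.fst PF.un_pred PF.snd Polynomial.X ?_) (fun p => ?_)
  · intro p i _
    rw [un_pred_iterate, Polynomial.eval_X, pe_length, un_length, un_length, un_length]
    omega
  · exact un_pred_iterate p.2 p.1

theorem un_mul_iterate (i a acc : ℕ) :
    (fun s : ℕ × ℕ => (s.1, s.1 + s.2))^[i] (a, acc) = (a, i * a + acc) := by
  induction i generalizing acc with
  | zero => simp
  | succ i ih =>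
    rw [Function.iterate_succ_apply]
    simp only
    rw [ih]
    congr 1
    ring

theorem PF.un_mul : PF (pe un un) un (fun p => p.1 * p.2) := by
  have h : PF (pe un un) (pe un un)
      (fun p : ℕ × ℕ => (fun s : ℕ × ℕ => (s.1, s.1 + s.2))^[p.2] (p.1, 0)) := by
    refine PF.iter (ea := pe un un) (eb := pe un un) (init := fun p : ℕ × ℕ => (p.1, 0))
      (n := fun p : ℕ × ℕ => p.2) (PF.pair PF.fst (PF.const 0)) (PF.pair PF.fst PF.un_add)
      PF.snd (Polynomial.X + Polynomial.X ^ 2) ?_
    intro p i hi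
    simp only [un_mul_iterate, pe_length, un_length, Polynomial.eval_add, Polynomial.eval_X,
      Polynomial.eval_pow]
    have h1 : i * p.1 ≤ p.2 * p.1 := Nat.mul_le_mul_right _ hi
    nlinarith
  refine PF.congr (PF.comp PF.snd h) (fun p => ?_)
  rw [un_mul_iterate]
  simp [mul_comm]

theorem PF.un_lt : PF (pe un un) bo (fun p => decide (p.1 < p.2)) := by
  refine PF.congr (PF.comp PF.bnot (PF.comp PF.un_isZero
    (PF.comp PF.un_sub (PF.pair PF.snd PF.fst)))) (fun p => ?_)
  simp only
  by_cases h : p.1 < p.2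
  · rw [decide_eq_true h, decide_eq_false (by omega)]
    rfl
  · rw [decide_eq_false h, decide_eq_true (by omega)]
    rfl

theorem PF.un_eq : PF (pe un un) bo (fun p => decide (p.1 = p.2)) := by
  refine PF.congr (PF.comp PF.un_isZero (PF.comp PF.un_add
    (PF.pair PF.un_sub (PF.comp PF.un_sub (PF.pair PF.snd PF.fst))))) (fun p => ?_)
  simp only
  by_cases h : p.1 = p.2
  · rw [decide_eq_true h, decide_eq_true (by omega)]
  · rw [decide_eq_false h, decide_eq_false (by omega)]

/-- one step of the division by repeated subtraction: state `(x, y, q)` -/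
def divStep (s : ℕ × ℕ × ℕ) : ℕ × ℕ × ℕ :=
  if (!decide (s.1 < s.2.1) && !decide (s.2.1 = 0)) = true then (s.1 - s.2.1, s.2.1, s.2.2 + 1)
  else s

theorem divStep_of_lt {x y q : ℕ} (h : x < y ∨ y = 0) : divStep (x, y, q) = (x, y, q) := by
  unfold divStep
  rw [if_neg]
  rcases h with h | h <;> simp [h]

theorem divStep_of_le {x y q : ℕ} (h : y ≤ x) (h0 : y ≠ 0) :
    divStep (x, y, q) = (x - y, y, q + 1) := by
  unfold divStep
  rw [if_pos]
  simp [h, h0]

theorem divStep_iterate (n x y q : ℕ) (h : x ≤ n) :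
    divStep^[n] (x, y, q) = (x % y, y, q + x / y) := by
  induction n generalizing x q with
  | zero =>
    have hx : x = 0 := by omega
    subst hx
    simp
  | succ n ih =>
    by_cases h1 : x < y ∨ y = 0
    · have h2 : ∀ k, divStep^[k] (x, y, q) = (x, y, q) := fun k =>
        Function.iterate_fixed (divStep_of_lt h1) k
      rw [h2]
      rcases h1 with h1 | h1
      · rw [Nat.mod_eq_of_lt h1, Nat.div_eq_of_lt h1, add_zero]
      · rw [h1, Nat.mod_zero, Nat.div_zero, add_zero]
    · push Not at h1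
      rw [Function.iterate_succ_apply, divStep_of_le h1.1 h1.2, ih _ _ (by omega),
        ← Nat.mod_eq_sub_mod h1.1, Nat.div_eq_sub_div (by omega) h1.1]
      congr 2
      omega

theorem divStep_bound (x y : ℕ) (i : ℕ) :
    (divStep^[i] (x, y, 0)).1 + (divStep^[i] (x, y, 0)).2.2 ≤ x ∧
      (divStep^[i] (x, y, 0)).2.1 = y := by
  induction i with
  | zero => simp
  | succ i ih =>
    rw [Function.iterate_succ_apply']
    set s := divStep^[i] (x, y, 0) with hs
    obtain ⟨h1, h2⟩ := ih
    have hs' : s = (s.1, s.2.1, s.2.2) := rfl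
    by_cases h3 : s.1 < s.2.1 ∨ s.2.1 = 0
    · rw [hs', divStep_of_lt h3]
      exact ⟨h1, h2⟩
    · push Not at h3
      rw [hs', divStep_of_le h3.1 h3.2]
      refine ⟨?_, h2⟩
      simp only
      omega

theorem PF.divStep : PF (pe un (pe un un)) (pe un (pe un un)) divStep := by
  have hx : PF (pe un (pe un un)) un (fun s : ℕ × ℕ × ℕ => s.1) := PF.fst
  have hy : PF (pe un (pe un un)) un (fun s : ℕ × ℕ × ℕ => s.2.1) := PF.fst' PF.snd
  have hq : PF (pe un (pe un un)) un (fun s : ℕ × ℕ × ℕ => s.2.2) := PF.snd' PF.snd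
  refine PF.cond ?_ ?_ PF.id
  · exact PF.comp PF.band (PF.pair (PF.comp PF.bnot (PF.comp PF.un_lt (PF.pair hx hy)))
      (PF.comp PF.bnot (PF.comp PF.un_isZero hy)))
  · exact PF.pair (PF.comp PF.un_sub (PF.pair hx hy))
      (PF.pair hy (PF.comp (g := fun p : ℕ × ℕ => p.1 + p.2)
        (f := fun s : ℕ × ℕ × ℕ => (s.2.2, 1)) PF.un_add (PF.pair hq (PF.const 1))))

theorem PF.un_divmod : PF (pe un un) (pe un (pe un un))
    (fun p : ℕ × ℕ => (p.1 % p.2, p.2, p.1 / p.2)) := by
  have h : PF (pe un un) (pe un (pe un un))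
      (fun p : ℕ × ℕ => PT.divStep^[p.1] (p.1, p.2, 0)) := by
    refine PF.iter (ea := pe un un) (eb := pe un (pe un un))
      (init := fun p : ℕ × ℕ => (p.1, p.2, 0)) (n := fun p : ℕ × ℕ => p.1)
      (PF.pair PF.fst (PF.pair PF.snd (PF.const 0))) PF.divStep PF.fst
      (3 * Polynomial.X + 5) ?_
    intro p i _
    obtain ⟨h1, h2⟩ := divStep_bound p.1 p.2 i
    simp only [pe_length, un_length, Polynomial.eval_add, Polynomial.eval_mul, Polynomial.eval_X,
      Polynomial.eval_ofNat, h2]
    omega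
  refine PF.congr h (fun p => ?_)
  rw [divStep_iterate _ _ _ _ le_rfl, zero_add]

/-- `x / y` by repeated subtraction -/
theorem PF.un_div : PF (pe un un) un (fun p => p.1 / p.2) := PF.snd' (PF.snd' PF.un_divmod)

theorem PF.un_mod : PF (pe un un) un (fun p => p.1 % p.2) := PF.fst' PF.un_divmod

end Crest.Agent.PT
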