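import Mathlib
import Crest.Prelude.Def_Complexity

/-!
# Polynomial time toolkit, level 0: structured programs on stacks of bits, with calls

`Prog K ι`: programs acting on stacks `S : K → List Bool` (top of the stack = head of the list),
with calls `call i k` that replace the stack `k` by `F i (S k)`, where `F : ι → List Bool → List Bool`
is a finite family of polynomial time functions.
`Run F T P S t S'`: started in `S`, the program `P` ends in `S'` within cost `t`.
Only theorem to be cited from the compiler: `Crest.Agent.PolyT.polyTime_of_run` (file `Compile.lean`).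
-/

set_option autoImplicit false

namespace Crest.Agent.PolyT

open Crest.Complexity

/-- structured programs on stacks of bits indexed by `K`, with calls indexed by `ι` -/
inductive Prog (K ι : Type) : Type
  | skip : Prog K ι
  | push (k : K) (b : Bool) : Prog K ι
  | pop (k : K) : Prog K ι
  | seq (P Q : Prog K ι) : Prog K ι
  | ite (k : K) (c : Option Bool → Bool) (P Q : Prog K ι) : Prog K ι
  | loop (k : K) (c : Option Bool → Bool) (P : Prog K ι) : Prog K ι
  | call (i : ι) (k : K) : Prog K ι

/-- big-step semantics with cost; `c` in `ite k c P Q` and `loop k c P` reads the top `(S k).head?`. -/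
inductive Run {K ι : Type} [DecidableEq K] (F : ι → List Bool → List Bool) (T : ι → Polynomial ℕ) :
    Prog K ι → (K → List Bool) → ℕ → (K → List Bool) → Prop
  | skip (S : K → List Bool) : Run F T Prog.skip S 1 S
  | push (k : K) (b : Bool) (S : K → List Bool) :
      Run F T (Prog.push k b) S 1 (Function.update S k (b :: S k))
  | pop (k : K) (S : K → List Bool) :
      Run F T (Prog.pop k) S 1 (Function.update S k (S k).tail)
  | seq {P Q : Prog K ι} {S S₁ S₂ : K → List Bool} {t₁ t₂ : ℕ} :
      Run F T P S t₁ S₁ → Run F T Q S₁ t₂ S₂ → Run F T (Prog.seq P Q) S (t₁ + t₂) S₂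
  | ite_true {k : K} {c : Option Bool → Bool} {P Q : Prog K ι} {S S' : K → List Bool} {t : ℕ} :
      c (S k).head? = true → Run F T P S t S' → Run F T (Prog.ite k c P Q) S (t + 1) S'
  | ite_false {k : K} {c : Option Bool → Bool} {P Q : Prog K ι} {S S' : K → List Bool} {t : ℕ} :
      c (S k).head? = false → Run F T Q S t S' → Run F T (Prog.ite k c P Q) S (t + 1) S'
  | loop_done {k : K} {c : Option Bool → Bool} {P : Prog K ι} {S : K → List Bool} :
      c (S k).head? = false → Run F T (Prog.loop k c P) S 1 S
  | loop_step {k : K} {c : Option Bool → Bool} {P : Prog K ι} {S S₁ S₂ : K → List Bool}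
      {t₁ t₂ : ℕ} :
      c (S k).head? = true → Run F T P S t₁ S₁ → Run F T (Prog.loop k c P) S₁ t₂ S₂ →
        Run F T (Prog.loop k c P) S (t₁ + t₂ + 1) S₂
  | call (i : ι) (k : K) (S : K → List Bool) :
      Run F T (Prog.call i k) S
        ((T i).eval (S k).length + 2 * (S k).length + 2 * (F i (S k)).length + 8)
        (Function.update S k (F i (S k)))
  | mono {P : Prog K ι} {S S' : K → List Bool} {t t' : ℕ} :
      Run F T P S t S' → t ≤ t' → Run F T P S t' S'

/-- the store with `x` on stack `k` and all other stacks empty -/
def single {K : Type} [DecidableEq K] (k : K) (x : List Bool) : K → List Bool :=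
  Function.update (fun _ => []) k x

/-- evaluation of a polynomial with natural coefficients is monotone -/
theorem poly_mono (p : Polynomial ℕ) {a b : ℕ} (h : a ≤ b) : p.eval a ≤ p.eval b := by
  rw [Polynomial.eval_eq_sum_range, Polynomial.eval_eq_sum_range]
  exact Finset.sum_le_sum fun i _ => Nat.mul_le_mul_left _ (Nat.pow_le_pow_left h i)

end Crest.Agent.PolyT
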