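import Crest.Agent.Lib.PolyTime.CoreBasic
import Crest.Agent.Lib.PolyTime.CoreIte
import Crest.Agent.Lib.PolyTime.CoreIter
import Crest.Agent.Lib.PolyTime.CoreLen
import Crest.Agent.Lib.PolyTime.CoreLenMul
import Crest.Agent.Lib.PolyTime.CorePair
import Crest.Agent.Lib.PolyTime.CoreTake
import Crest.Agent.Lib.PolyTime.CoreUnpair

/-!
# Bridge from the untyped polynomial time toolkit (layer (1)-(3), helper64) to the typed layer
-/

set_option autoImplicit false

namespace Crest.Agent.PT

open Crest.Complexity Crest.Agent.PolyT

/-- self-delimiting pairing -/
def pr (x y : List Bool) : List Bool := x.flatMap (fun b => [true, b]) ++ false :: y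

/-- first component -/
def pfst : List Bool → List Bool
  | true :: b :: l => b :: pfst l
  | _ => []

/-- second component -/
def psnd : List Bool → List Bool
  | true :: _ :: l => psnd l
  | false :: l => l
  | _ => []

@[simp] theorem pfst_pr (x y : List Bool) : pfst (pr x y) = x := by
  induction x with
  | nil => rfl
  | cons b x ih =>
    simp only [pr, List.flatMap_cons, List.cons_append, List.nil_append] at ih ⊢
    rw [pfst, ih]

@[simp] theorem psnd_pr (x y : List Bool) : psnd (pr x y) = y := by
  induction x with
  | nil => rfl
  | cons b x ih =>
    simp only [pr, List.flatMap_cons, List.cons_append, List.nil_append] at ih ⊢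
    rw [psnd, ih]

@[simp] theorem pr_length (x y : List Bool) : (pr x y).length = 2 * x.length + y.length + 1 := by
  have : (x.flatMap (fun b => [true, b])).length = 2 * x.length := by
    rw [List.length_flatMap]; simp [mul_comm]
  simp only [pr, List.length_append, List.length_cons, this]; ring

theorem pr_eq (x y : List Bool) : pr x y = pairCode x y := by
  simp [pr, pairCode, delim]

theorem pfst_eq : ∀ x, pfst x = fstCode x
  | [] => rfl
  | [true] => rfl
  | true :: b :: l => by rw [pfst, fstCode, pfst_eq l]
  | false :: l => rfl

theorem psnd_eq : ∀ x, psnd x = sndCode x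
  | [] => rfl
  | [true] => rfl
  | true :: b :: l => by rw [psnd, sndCode, psnd_eq l]
  | false :: l => rfl

theorem PolyTime.comp {f g : List Bool → List Bool} (hg : PolyTime g) (hf : PolyTime f) :
    PolyTime (fun x => g (f x)) := polyTime_comp hg hf

theorem PolyTime.id : PolyTime (fun x => x) := polyTime_id

theorem PolyTime.const (y : List Bool) : PolyTime (fun _ => y) := polyTime_const y

theorem PolyTime.pr {f g : List Bool → List Bool} (hf : PolyTime f) (hg : PolyTime g) :
    PolyTime (fun x => pr (f x) (g x)) := by
  simp only [pr_eq]
  exact polyTime_pair hf hg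

theorem PolyTime.pfst : PolyTime pfst := by
  have : PT.pfst = fstCode := funext pfst_eq
  rw [this]
  exact polyTime_fst

theorem PolyTime.psnd : PolyTime psnd := by
  have : PT.psnd = sndCode := funext psnd_eq
  rw [this]
  exact polyTime_snd

theorem PolyTime.cons (b : Bool) : PolyTime (fun x => b :: x) := polyTime_cons b

theorem PolyTime.tail : PolyTime List.tail := polyTime_tail

theorem PolyTime.reverse : PolyTime List.reverse := polyTime_reverse

/-- `pr x y ↦ x ++ y` -/
theorem PolyTime.append : PolyTime (fun z => PT.pfst z ++ PT.psnd z) := by
  have h1 : PT.pfst = fstCode := funext pfst_eq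
  have h2 : PT.psnd = sndCode := funext psnd_eq
  rw [h1, h2]
  exact polyTime_append

/-- case distinction on the head of `c x` -/
theorem PolyTime.case {c f g h : List Bool → List Bool} (hc : PolyTime c) (hf : PolyTime f)
    (hg : PolyTime g) (hh : PolyTime h) :
    PolyTime (fun x => match c x with
      | [] => f x
      | false :: _ => g x
      | true :: _ => h x) := by
  have h1 := polyTime_ite (polyTime_comp polyTime_isEmpty hc) hf hg
  have h2 := polyTime_ite hc hh h1
  convert h2 using 2 with x
  rcases hcx : c x with _ | ⟨b, l⟩
  · simp
  · cases b <;> simp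

/-- polynomial output length -/
theorem PolyTime.length_le {f : List Bool → List Bool} (hf : PolyTime f) :
    ∃ q : Polynomial ℕ, ∀ x, (f x).length ≤ q.eval x.length := polyTime_length_le hf

/-- a polynomial of the length, in unary -/
theorem PolyTime.poly (q : Polynomial ℕ) :
    PolyTime (fun x => List.replicate (q.eval x.length) true) := by
  have hlen : PolyTime (fun x => List.replicate x.length true) := by
    have h := polyTime_comp polyTime_lenMul (polyTime_pair (polyTime_id) (polyTime_const [true]))
    convert h using 2 with x
    simp
  have hadd : ∀ {a b : List Bool → ℕ}, PolyTime (fun x => List.replicate (a x) true) →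
      PolyTime (fun x => List.replicate (b x) true) →
      PolyTime (fun x => List.replicate (a x + b x) true) := by
    intro a b ha hb
    have h := polyTime_comp polyTime_append (polyTime_pair ha hb)
    convert h using 2 with x
    rw [fstCode_pairCode, sndCode_pairCode, List.replicate_add]
  have hmul : ∀ {a b : List Bool → ℕ}, PolyTime (fun x => List.replicate (a x) true) →
      PolyTime (fun x => List.replicate (b x) true) →
      PolyTime (fun x => List.replicate (a x * b x) true) := by
    intro a b ha hb
    have h := polyTime_comp polyTime_lenMul (polyTime_pair ha hb)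
    convert h using 2 with x
    simp
  induction q using Polynomial.induction_on' with
  | add p q hp hq =>
    simp only [Polynomial.eval_add]
    exact hadd hp hq
  | monomial n c =>
    simp only [Polynomial.eval_monomial]
    refine hmul (polyTime_const _) ?_
    induction n with
    | zero => simpa using polyTime_const [true]
    | succ n ih =>
      simp only [pow_succ]
      exact hmul ih hlen

theorem eval_mono (q : Polynomial ℕ) {a b : ℕ} (h : a ≤ b) : q.eval a ≤ q.eval b :=
  poly_mono q h

/-- bounded iteration, promise form: `pr z (pr x y) ↦ step^[|x|] y` provided all iterates have length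
at most `q |z|` -/
theorem PolyTime.iterPad {step : List Bool → List Bool} (hs : PolyTime step) (q : Polynomial ℕ) :
    ∃ F, PolyTime F ∧ ∀ z x y, (∀ i ≤ x.length, (step^[i] y).length ≤ q.eval z.length) →
      F (PT.pr z (PT.pr x y)) = step^[x.length] y := by
  -- one step on `(counter, state)`
  let st : List Bool → List Bool := fun s => match PT.pfst s with
    | [] => s
    | false :: _ => PT.pr (PT.pfst s).tail (step (PT.psnd s))
    | true :: _ => PT.pr (PT.pfst s).tail (step (PT.psnd s))
  have hst1 : PolyTime (fun s => PT.pr (PT.pfst s).tail (step (PT.psnd s))) :=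
    PolyTime.pr (PolyTime.comp PolyTime.tail PolyTime.pfst) (PolyTime.comp hs PolyTime.psnd)
  have hst : PolyTime st := PolyTime.case PolyTime.pfst PolyTime.id hst1 hst1
  have hst_nil : ∀ y, st (PT.pr [] y) = PT.pr [] y := by
    intro y; simp [st]
  have hst_cons : ∀ b x y, st (PT.pr (b :: x) y) = PT.pr x (step y) := by
    intro b x y; cases b <;> simp [st]
  let R : Polynomial ℕ := 2 * Polynomial.X + 1 + q
  have hR : ∀ n, R.eval n = 2 * n + 1 + q.eval n := by
    intro n; simp [R]
  let G : List Bool → List Bool := fun w =>
    PT.pr (List.replicate (R.eval w.length) true) (PT.psnd w)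
  have hG : PolyTime G := PolyTime.pr (PolyTime.poly R) PolyTime.psnd
  refine ⟨_, PolyTime.comp PolyTime.psnd (PolyTime.comp (polyTime_iterate hst) hG), ?_⟩
  intro z x y hb
  set w := PT.pr z (PT.pr x y) with hw
  set N := R.eval w.length with hN
  have hwl : w.length = 2 * z.length + (2 * x.length + y.length + 1) + 1 := by simp [hw]
  have hN1 : N = 2 * w.length + 1 + q.eval w.length := hR _
  have hq : q.eval z.length ≤ q.eval w.length := eval_mono q (by omega)
  have hGw : G w = PT.pr (List.replicate N true) (PT.pr x y) := by simp [G, hw, hN]
  show PT.psnd ((fun y => (st y).take (fstCode (G w)).length)^[(fstCode (G w)).length]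
    (sndCode (G w))) = _
  rw [← pfst_eq, ← psnd_eq, hGw, pfst_pr, psnd_pr, List.length_replicate]
  have key : ∀ i, (fun y => (st y).take N)^[i] (PT.pr x y) =
      PT.pr (x.drop i) (step^[min i x.length] y) := by
    intro i
    induction i with
    | zero => simp
    | succ i ih =>
      rw [Function.iterate_succ_apply', ih]
      rcases Nat.lt_or_ge i x.length with hi | hi
      · have hd : x.drop i = x[i] :: x.drop (i + 1) := List.drop_eq_getElem_cons hi
        show List.take N (st _) = _
        rw [hd, hst_cons, min_eq_left hi.le, min_eq_left (Nat.succ_le_of_lt hi),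
          Function.iterate_succ_apply']
        apply List.take_of_length_le
        have h1 := hb (i + 1) hi
        rw [Function.iterate_succ_apply'] at h1
        rw [pr_length, List.length_drop]
        omega
      · have hd : x.drop i = [] := List.drop_eq_nil_of_le hi
        have hd' : x.drop (i + 1) = [] := List.drop_eq_nil_of_le (by omega)
        show List.take N (st _) = _
        rw [hd, hst_nil, hd', min_eq_right hi, min_eq_right (by omega)]
        apply List.take_of_length_le
        have h1 := hb x.length le_rfl
        rw [pr_length, List.length_nil]
        omega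
  rw [key, psnd_pr, min_eq_right (by omega)]

end Crest.Agent.PT
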